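import Mathlib

/-! P054, block R: planar sections of a finite set in `ℝ³` (Lemma S).
`ρ(M)` = minimal number of points of `M` off a line. For distinct planes `Π` the sum of
`ρ(M ∩ Π)³` is at most `5 ρ(M)³`. -/

set_option linter.all false
set_option autoImplicit false

namespace Vale.Agent.P054.Y.Sec

open Finset

abbrev V3 := Fin 3 → ℝ

/-- `a` is off the line through `x` with direction `b` -/
def Off (x b a : V3) : Prop := crossProduct (a - x) b ≠ 0

theorem normal_unique {u v n w : V3} (hw : crossProduct u v ≠ 0)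
    (hn : n ≠ 0) (hnu : n ⬝ᵥ u = 0) (hnv : n ⬝ᵥ v = 0) :
    ∃ c : ℝ, c ≠ 0 ∧ n = c • crossProduct u v := by
  set w := crossProduct u v with hwdef
  have hw2 : w ⬝ᵥ w ≠ 0 := by
    intro h
    exact hw (dotProduct_self_eq_zero.1 h)
  have key : ∀ k, (w ⬝ᵥ w) * n k = (n ⬝ᵥ w) * w k := by
    intro k
    have e0 : w 0 = u 1 * v 2 - u 2 * v 1 := by simp [hwdef, cross_apply]
    have e1 : w 1 = u 2 * v 0 - u 0 * v 2 := by simp [hwdef, cross_apply]
    have e2 : w 2 = u 0 * v 1 - u 1 * v 0 := by simp [hwdef, cross_apply]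
    simp only [dotProduct, Fin.sum_univ_three] at hnu hnv ⊢
    fin_cases k
    · simp only [Fin.zero_eta, Fin.isValue]
      rw [e0, e1, e2]
      linear_combination
        ((u 2 * v 0 - u 0 * v 2) * u 2 - (u 0 * v 1 - u 1 * v 0) * u 1) * hnv
        - ((u 2 * v 0 - u 0 * v 2) * v 2 - (u 0 * v 1 - u 1 * v 0) * v 1) * hnu
    · simp only [Fin.mk_one, Fin.isValue]
      rw [e0, e1, e2]
      linear_combination
        ((u 0 * v 1 - u 1 * v 0) * u 0 - (u 1 * v 2 - u 2 * v 1) * u 2) * hnv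
        - ((u 0 * v 1 - u 1 * v 0) * v 0 - (u 1 * v 2 - u 2 * v 1) * v 2) * hnu
    · simp only [Fin.reduceFinMk, Fin.isValue]
      rw [e0, e1, e2]
      linear_combination
        ((u 1 * v 2 - u 2 * v 1) * u 1 - (u 2 * v 0 - u 0 * v 2) * u 0) * hnv
        - ((u 1 * v 2 - u 2 * v 1) * v 1 - (u 2 * v 0 - u 0 * v 2) * v 0) * hnu
  have hn' : n = ((n ⬝ᵥ w) / (w ⬝ᵥ w)) • w := by
    funext k
    have := key k
    simp only [Pi.smul_apply, smul_eq_mul]
    field_simp
    linarith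
  refine ⟨(n ⬝ᵥ w) / (w ⬝ᵥ w), ?_, hn'⟩
  intro h0
  apply hn
  rw [hn', h0, zero_smul]

/-- two planes with three common non collinear points coincide -/
theorem plane_unique {n m x y z : V3} {d e : ℝ} (hn : n ≠ 0) (hm : m ≠ 0)
    (h : crossProduct (z - x) (y - x) ≠ 0)
    (hx : n ⬝ᵥ x = d) (hy : n ⬝ᵥ y = d) (hz : n ⬝ᵥ z = d)
    (hx' : m ⬝ᵥ x = e) (hy' : m ⬝ᵥ y = e) (hz' : m ⬝ᵥ z = e) :
    {a : V3 | n ⬝ᵥ a = d} = {a : V3 | m ⬝ᵥ a = e} := by
  obtain ⟨c, hc, hcn⟩ := normal_unique (w := 0) h hn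
    (by rw [dotProduct_sub, hz, hx, sub_self]) (by rw [dotProduct_sub, hy, hx, sub_self])
  obtain ⟨c', hc', hcm⟩ := normal_unique (w := 0) h hm
    (by rw [dotProduct_sub, hz', hx', sub_self]) (by rw [dotProduct_sub, hy', hx', sub_self])
  set w := crossProduct (z - x) (y - x)
  ext a
  simp only [Set.mem_setOf_eq]
  rw [← hx, ← hx', hcn, hcm]
  simp only [smul_dotProduct, smul_eq_mul]
  constructor
  · intro h1
    rw [mul_left_cancel₀ hc h1]
  · intro h1
    rw [mul_left_cancel₀ hc' h1]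

open scoped Classical in
/-- ordered non collinear triples of `N` -/
noncomputable def tri (N : Finset V3) : Finset (V3 × V3 × V3) :=
  (N ×ˢ N ×ˢ N).filter (fun t => Off t.1 (t.2.1 - t.1) t.2.2)

theorem on_line {x0 b0 p : V3} (hb0 : b0 ≠ 0) (hp : crossProduct (p - x0) b0 = 0) :
    ∃ t : ℝ, p = x0 + t • b0 := by
  have c0 : (p 1 - x0 1) * b0 2 - (p 2 - x0 2) * b0 1 = 0 := by
    have := congrFun hp 0
    rw [cross_apply] at this
    exact this
  have c1 : (p 2 - x0 2) * b0 0 - (p 0 - x0 0) * b0 2 = 0 := by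
    have := congrFun hp 1
    rw [cross_apply] at this
    exact this
  have c2 : (p 0 - x0 0) * b0 1 - (p 1 - x0 1) * b0 0 = 0 := by
    have := congrFun hp 2
    rw [cross_apply] at this
    exact this
  have hbb : b0 0 * b0 0 + b0 1 * b0 1 + b0 2 * b0 2 ≠ 0 := by
    intro h
    apply hb0
    apply dotProduct_self_eq_zero.1
    rw [dotProduct, Fin.sum_univ_three]
    exact h
  set t : ℝ := ((p 0 - x0 0) * b0 0 + (p 1 - x0 1) * b0 1 + (p 2 - x0 2) * b0 2) /
    (b0 0 * b0 0 + b0 1 * b0 1 + b0 2 * b0 2) with ht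
  have htt : t * (b0 0 * b0 0 + b0 1 * b0 1 + b0 2 * b0 2) =
      (p 0 - x0 0) * b0 0 + (p 1 - x0 1) * b0 1 + (p 2 - x0 2) * b0 2 := by
    rw [ht, div_mul_cancel₀ _ hbb]
  refine ⟨t, ?_⟩
  have hj : ∀ j, (b0 0 * b0 0 + b0 1 * b0 1 + b0 2 * b0 2) * p j =
      (b0 0 * b0 0 + b0 1 * b0 1 + b0 2 * b0 2) * (x0 + t • b0) j := by
    intro j
    simp only [Pi.add_apply, Pi.smul_apply, smul_eq_mul]
    fin_cases j
    · simp only [Fin.zero_eta, Fin.isValue]
      linear_combination (b0 1) * c2 - (b0 2) * c1 - b0 0 * htt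
    · simp only [Fin.mk_one, Fin.isValue]
      linear_combination (b0 2) * c0 - (b0 0) * c2 - b0 1 * htt
    · simp only [Fin.reduceFinMk, Fin.isValue]
      linear_combination (b0 0) * c1 - (b0 1) * c0 - b0 2 * htt
  funext j
  exact mul_left_cancel₀ hbb (hj j)

theorem off_self {x b : V3} : ¬ Off x b x := by
  simp [Off]

open scoped Classical in
theorem tri_lower (N : Finset V3) (r : ℕ) (hr : 1 ≤ r)
    (h : ∀ x b : V3, b ≠ 0 → r ≤ (N.filter (Off x b)).card) :
    (r + 1) * r * r ≤ (tri N).card := by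
  have hN : r + 1 ≤ N.card := by
    have h0 := h 0 (fun _ => 1) (by intro h; have := congrFun h 0; simp at this)
    have hne : N.Nonempty := by
      rw [← Finset.card_pos]
      exact lt_of_lt_of_le (lt_of_lt_of_le Nat.zero_lt_one (le_trans hr h0))
        (Finset.card_le_card (Finset.filter_subset _ _))
    obtain ⟨x, hx⟩ := hne
    have h1 := h x (fun _ => 1) (by intro h; have := congrFun h 0; simp at this)
    have h2 : (N.filter (Off x (fun _ => 1))).card ≤ (N.erase x).card := by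
      apply Finset.card_le_card
      intro a ha
      rw [Finset.mem_filter] at ha
      rw [Finset.mem_erase]
      refine ⟨?_, ha.1⟩
      rintro rfl
      exact off_self ha.2
    rw [Finset.card_erase_of_mem hx] at h2
    have : 0 < N.card := Finset.card_pos.2 ⟨x, hx⟩
    omega
  have hsig : (tri N).card = ∑ x ∈ N, ∑ y ∈ N, (N.filter (Off x (y - x))).card := by
    rw [tri, Finset.card_filter, Finset.sum_product]
    refine Finset.sum_congr rfl (fun x _ => ?_)
    rw [Finset.sum_product]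
    refine Finset.sum_congr rfl (fun y _ => ?_)
    rw [Finset.card_filter]
  rw [hsig]
  have hx : ∀ x ∈ N, r * r ≤ ∑ y ∈ N, (N.filter (Off x (y - x))).card := by
    intro x hx
    calc r * r ≤ (N.erase x).card * r := by
          apply Nat.mul_le_mul_right
          rw [Finset.card_erase_of_mem hx]
          omega
      _ = ∑ y ∈ N.erase x, r := by simp
      _ ≤ ∑ y ∈ N.erase x, (N.filter (Off x (y - x))).card := by
          refine Finset.sum_le_sum (fun y hy => h x (y - x) ?_)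
          rw [Finset.mem_erase] at hy
          exact sub_ne_zero.2 hy.1
      _ ≤ ∑ y ∈ N, (N.filter (Off x (y - x))).card :=
          Finset.sum_le_sum_of_subset (Finset.erase_subset _ _)
  calc (r + 1) * r * r = (r + 1) * (r * r) := by ring
    _ ≤ N.card * (r * r) := Nat.mul_le_mul_right _ hN
    _ = ∑ x ∈ N, r * r := by simp
    _ ≤ _ := Finset.sum_le_sum hx

theorem cube_sum_le {ι : Type*} (I : Finset ι) (f : ι → ℕ) :
    ∑ i ∈ I, f i ^ 3 ≤ (∑ i ∈ I, f i) ^ 3 := by
  classical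
  induction I using Finset.induction_on with
  | empty => simp
  | insert a s ha ih =>
    rw [Finset.sum_insert ha, Finset.sum_insert ha]
    have : f a ^ 3 + (∑ i ∈ s, f i) ^ 3 ≤ (f a + ∑ i ∈ s, f i) ^ 3 := by
      have : (f a + ∑ i ∈ s, f i) ^ 3 = f a ^ 3 + (∑ i ∈ s, f i) ^ 3
        + 3 * f a * (∑ i ∈ s, f i) * (f a + ∑ i ∈ s, f i) := by ring
      omega
    omega

open scoped Classical in
/-- **Lemma S** (planar sections). `M` has at most `ρ` points off the line through `x0` with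
direction `b0`; the planes `{n i · y = d i}` are pairwise different and every line misses at least
`k i ≥ 2` points of `M` in the plane. Then `∑ (k i)^3 ≤ 5 ρ^3`. -/
theorem sections (M : Finset V3) (x0 b0 : V3) (hb0 : b0 ≠ 0) (ρ : ℕ)
    (hρ : (M.filter (Off x0 b0)).card ≤ ρ)
    {ι : Type*} (I : Finset ι) (n : ι → V3) (d : ι → ℝ) (k : ι → ℕ)
    (hn : ∀ i ∈ I, n i ≠ 0)
    (hinj : ∀ i ∈ I, ∀ j ∈ I, {a : V3 | n i ⬝ᵥ a = d i} = {a : V3 | n j ⬝ᵥ a = d j} → i = j)
    (hk2 : ∀ i ∈ I, 2 ≤ k i)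
    (hk : ∀ i ∈ I, ∀ x b : V3, b ≠ 0 →
      k i ≤ ((M.filter (fun a => n i ⬝ᵥ a = d i)).filter (Off x b)).card) :
    ∑ i ∈ I, k i ^ 3 ≤ 5 * ρ ^ 3 := by
  set W := M.filter (Off x0 b0) with hW
  set P : ι → Finset V3 := fun i => W.filter (fun a => n i ⬝ᵥ a = d i) with hP
  set A := I.filter (fun i => n i ⬝ᵥ x0 = d i ∧ n i ⬝ᵥ b0 = 0) with hA
  set Bd := I.filter (fun i => ¬ (n i ⬝ᵥ x0 = d i ∧ n i ⬝ᵥ b0 = 0)) with hBd
  -- planes through the line
  have h1 : ∑ i ∈ A, k i ^ 3 ≤ ρ ^ 3 := by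
    have hle : ∀ i ∈ A, k i ≤ (P i).card := by
      intro i hi
      have hi' := (Finset.mem_filter.1 hi).1
      refine le_trans (hk i hi' x0 b0 hb0) (Finset.card_le_card ?_)
      intro a ha
      simp only [hP, hW, Finset.mem_filter] at ha ⊢
      exact ⟨⟨ha.1.1, ha.2⟩, ha.1.2⟩
    have hdisj : ∀ i ∈ A, ∀ j ∈ A, i ≠ j → Disjoint (P i) (P j) := by
      intro i hi j hj hij
      rw [Finset.disjoint_left]
      intro a hai haj
      obtain ⟨hi1, hi2, hi3⟩ := Finset.mem_filter.1 hi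
      obtain ⟨hj1, hj2, hj3⟩ := Finset.mem_filter.1 hj
      simp only [hP, hW, Finset.mem_filter] at hai haj
      apply hij
      apply hinj i hi1 j hj1
      have hoff : crossProduct (a - x0) ((x0 + b0) - x0) ≠ 0 := by
        have : (x0 + b0) - x0 = b0 := by abel
        rw [this]
        exact hai.1.2
      refine plane_unique (hn i hi1) (hn j hj1) hoff hi2 ?_ hai.2 hj2 ?_ haj.2
      · rw [dotProduct_add, hi2, hi3, add_zero]
      · rw [dotProduct_add, hj2, hj3, add_zero]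
    calc ∑ i ∈ A, k i ^ 3 ≤ ∑ i ∈ A, (P i).card ^ 3 :=
          Finset.sum_le_sum (fun i hi => Nat.pow_le_pow_left (hle i hi) 3)
      _ ≤ (∑ i ∈ A, (P i).card) ^ 3 := cube_sum_le A _
      _ = (A.biUnion P).card ^ 3 := by
          rw [Finset.card_biUnion hdisj]
      _ ≤ ρ ^ 3 := by
          apply Nat.pow_le_pow_left
          refine le_trans (Finset.card_le_card ?_) hρ
          intro a ha
          rw [Finset.mem_biUnion] at ha
          obtain ⟨i, _, hai⟩ := ha
          exact (Finset.mem_filter.1 hai).1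
  -- planes which do not contain the line
  have h2 : ∑ i ∈ Bd, k i ^ 3 ≤ 4 * ρ ^ 3 := by
    have hle : ∀ i ∈ Bd, k i ^ 3 ≤ 4 * (tri (P i)).card := by
      intro i hi
      obtain ⟨hi1, hi2⟩ := Finset.mem_filter.1 hi
      have hk2i := hk2 i hi1
      have hlow : ∀ x b : V3, b ≠ 0 → k i - 1 ≤ ((P i).filter (Off x b)).card := by
        intro x b hb
        have h3 := hk i hi1 x b hb
        set S := (M.filter (fun a => n i ⬝ᵥ a = d i)).filter (Off x b) with hS
        set T := (M.filter (fun a => n i ⬝ᵥ a = d i)).filter (fun a => ¬ Off x0 b0 a) with hT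
        have hT1 : T.card ≤ 1 := by
          rw [Finset.card_le_one]
          intro a ha c hc
          simp only [hT, Finset.mem_filter, Off, not_not] at ha hc
          by_contra hac
          apply hi2
          -- two different points of the line in the plane
          have hpar : ∀ p : V3, crossProduct (p - x0) b0 = 0 → ∃ t : ℝ, p = x0 + t • b0 :=
            fun p hp => on_line hb0 hp
          obtain ⟨t, rfl⟩ := hpar a ha.2
          obtain ⟨s, rfl⟩ := hpar c hc.2
          have hts : t - s ≠ 0 := by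
            intro h
            apply hac
            rw [sub_eq_zero.1 h]
          have ea := ha.1.2
          have ec := hc.1.2
          rw [dotProduct_add, dotProduct_smul, smul_eq_mul] at ea ec
          have hz : (t - s) * (n i ⬝ᵥ b0) = 0 := by linarith
          have hnb : n i ⬝ᵥ b0 = 0 := by
            rcases mul_eq_zero.1 hz with h | h
            · exact absurd h hts
            · exact h
          refine ⟨?_, hnb⟩
          rw [hnb, mul_zero, add_zero] at ea
          exact ea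
        have hST : S ⊆ (P i).filter (Off x b) ∪ T := by
          intro a ha
          simp only [hS, hT, hP, hW, Finset.mem_union, Finset.mem_filter] at ha ⊢
          by_cases hoa : Off x0 b0 a
          · exact Or.inl ⟨⟨⟨ha.1.1, hoa⟩, ha.1.2⟩, ha.2⟩
          · exact Or.inr ⟨ha.1, hoa⟩
        have h4 := le_trans (Finset.card_le_card hST) (Finset.card_union_le _ _)
        omega
      have h5 := tri_lower (P i) (k i - 1) (by omega) hlow
      obtain ⟨m, hm⟩ : ∃ m, k i = m + 2 := ⟨k i - 2, by omega⟩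
      rw [hm] at h5 ⊢
      have h6 : (m + 2 - 1 + 1) * (m + 2 - 1) * (m + 2 - 1) = (m + 2) * (m + 1) * (m + 1) := by
        have : m + 2 - 1 = m + 1 := by omega
        rw [this]
      rw [h6] at h5
      nlinarith [h5, Nat.zero_le m, Nat.zero_le (m * m), Nat.zero_le (m * m * m)]
    have hdisj : ∀ i ∈ Bd, ∀ j ∈ Bd, i ≠ j → Disjoint (tri (P i)) (tri (P j)) := by
      intro i hi j hj hij
      rw [Finset.disjoint_left]
      rintro ⟨x, y, z⟩ hai haj
      have hi1 := (Finset.mem_filter.1 hi).1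
      have hj1 := (Finset.mem_filter.1 hj).1
      simp only [tri, hP, Finset.mem_filter, Finset.mem_product] at hai haj
      apply hij
      apply hinj i hi1 j hj1
      exact plane_unique (hn i hi1) (hn j hj1) hai.2 hai.1.1.2 hai.1.2.1.2 hai.1.2.2.2
        haj.1.1.2 haj.1.2.1.2 haj.1.2.2.2
    calc ∑ i ∈ Bd, k i ^ 3 ≤ ∑ i ∈ Bd, 4 * (tri (P i)).card := Finset.sum_le_sum hle
      _ = 4 * (Bd.biUnion (fun i => tri (P i))).card := by
          rw [Finset.card_biUnion hdisj, Finset.mul_sum]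
      _ ≤ 4 * (W ×ˢ W ×ˢ W).card := by
          apply Nat.mul_le_mul_left
          apply Finset.card_le_card
          intro a ha
          rw [Finset.mem_biUnion] at ha
          obtain ⟨i, _, hai⟩ := ha
          simp only [tri, hP, Finset.mem_filter, Finset.mem_product] at hai
          simp only [Finset.mem_product]
          exact ⟨hai.1.1.1, hai.1.2.1.1, hai.1.2.2.1⟩
      _ = 4 * W.card ^ 3 := by
          rw [Finset.card_product, Finset.card_product]; ring
      _ ≤ 4 * ρ ^ 3 := Nat.mul_le_mul_left _ (Nat.pow_le_pow_left hρ 3)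
  have hsplit : ∑ i ∈ I, k i ^ 3 = ∑ i ∈ A, k i ^ 3 + ∑ i ∈ Bd, k i ^ 3 :=
    (Finset.sum_filter_add_sum_filter_not I _ _).symm
  rw [hsplit]
  omega

/-- numerical consequence, non comparable sections (`A k i ≤ ρ`): gain `A^(-η)` -/
theorem gain {ι : Type*} (I : Finset ι) (k : ι → ℕ) (ρ : ℕ) (h : ∑ i ∈ I, k i ^ 3 ≤ 5 * ρ ^ 3)
    {η A : ℝ} (hη : 0 ≤ η) (hA : 0 < A) (hk : ∀ i ∈ I, A * (k i : ℝ) ≤ ρ) :
    ∑ i ∈ I, (k i : ℝ) ^ (3 + η) ≤ 5 * A ^ (-η) * (ρ : ℝ) ^ (3 + η) := by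
  have h' : ∑ i ∈ I, (k i : ℝ) ^ 3 ≤ 5 * (ρ : ℝ) ^ 3 := by exact_mod_cast h
  have hρA : 0 ≤ (ρ : ℝ) / A := by positivity
  have hpow : ∀ x : ℝ, 0 ≤ x → x ^ (3 + η) = x ^ 3 * x ^ η := by
    intro x hx
    rw [Real.rpow_add_of_nonneg hx (by norm_num) hη]
    congr 1
    exact_mod_cast Real.rpow_natCast x 3
  calc ∑ i ∈ I, (k i : ℝ) ^ (3 + η) ≤ ∑ i ∈ I, (k i : ℝ) ^ 3 * ((ρ : ℝ) / A) ^ η := by
        refine Finset.sum_le_sum (fun i hi => ?_)
        rw [hpow _ (Nat.cast_nonneg _)]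
        refine mul_le_mul_of_nonneg_left ?_ (by positivity)
        refine Real.rpow_le_rpow (Nat.cast_nonneg _) ?_ hη
        rw [le_div_iff₀ hA]
        linarith [hk i hi]
    _ = (∑ i ∈ I, (k i : ℝ) ^ 3) * ((ρ : ℝ) / A) ^ η := by rw [Finset.sum_mul]
    _ ≤ (5 * (ρ : ℝ) ^ 3) * ((ρ : ℝ) / A) ^ η :=
        mul_le_mul_of_nonneg_right h' (Real.rpow_nonneg hρA _)
    _ = 5 * A ^ (-η) * (ρ : ℝ) ^ (3 + η) := by
        rw [hpow _ (Nat.cast_nonneg _), Real.div_rpow (Nat.cast_nonneg _) hA.le,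
          Real.rpow_neg hA.le]
        ring

/-- numerical consequence, comparable sections (`ρ ≤ A k i`): at most `5 A^3` of them -/
theorem few {ι : Type*} (I : Finset ι) (k : ι → ℕ) (ρ : ℕ) (h : ∑ i ∈ I, k i ^ 3 ≤ 5 * ρ ^ 3)
    (hρ : 0 < ρ) (A : ℕ) (hk : ∀ i ∈ I, ρ ≤ A * k i) : I.card ≤ 5 * A ^ 3 := by
  have h1 : I.card * ρ ^ 3 ≤ (5 * A ^ 3) * ρ ^ 3 := by
    calc I.card * ρ ^ 3 = ∑ i ∈ I, ρ ^ 3 := by simp
      _ ≤ ∑ i ∈ I, A ^ 3 * k i ^ 3 := by
          refine Finset.sum_le_sum (fun i hi => ?_)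
          rw [← mul_pow]
          exact Nat.pow_le_pow_left (hk i hi) 3
      _ = A ^ 3 * ∑ i ∈ I, k i ^ 3 := by rw [Finset.mul_sum]
      _ ≤ A ^ 3 * (5 * ρ ^ 3) := Nat.mul_le_mul_left _ h
      _ = _ := by ring
  exact Nat.le_of_mul_le_mul_right h1 (by positivity)

/-- `V` numbers: `(∑ x_i)^(3+η) ≤ V^(2+η) ∑ x_i^(3+η)` -/
theorem power_mean {ι : Type*} (I : Finset ι) (x : ι → ℝ) (hx : ∀ i ∈ I, 0 ≤ x i)
    {η : ℝ} (hη : 0 ≤ η) :
    (∑ i ∈ I, x i) ^ (3 + η) ≤ (I.card : ℝ) ^ (2 + η) * ∑ i ∈ I, x i ^ (3 + η) := by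
  have h := Real.rpow_sum_le_const_mul_sum_rpow_of_nonneg I (p := 3 + η) (by linarith) hx
  have e : (3 + η) - 1 = 2 + η := by ring
  rw [e] at h
  exact h

end Vale.Agent.P054.Y.Sec
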