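import Mathlib

/-! P054: elementary bounded partition (Z-order). Dyadic cubes only, no polynomials. -/

set_option linter.all false
set_option autoImplicit false

namespace Vale.Agent.P054.Y.ZO

open Finset

section Abstract

variable {α β : Type*} [LinearOrder β] (c : ℕ → α → β)

/-- code sequence in lexicographic order -/
noncomputable def sq (x : α) : Lex (ℕ → β) := toLex (fun k => c k x)

theorem sq_lt_iff (x y : α) :
    sq c x < sq c y ↔ ∃ i, (∀ j, j < i → c j x = c j y) ∧ c i x < c i y := Iff.rfl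

theorem sq_conv {x y z : α} (hxy : sq c x < sq c y) (hyz : sq c y < sq c z) (k : ℕ)
    (hxz : ∀ l, l ≤ k → c l x = c l z) : ∀ l, l ≤ k → c l y = c l x := by
  obtain ⟨i, hi, hi'⟩ := (sq_lt_iff c x y).1 hxy
  obtain ⟨j, hj, hj'⟩ := (sq_lt_iff c y z).1 hyz
  intro l hl
  by_cases hik : i ≤ k
  · exfalso
    have h1 : c i x = c i z := hxz i hik
    rcases lt_trichotomy i j with h | h | h
    · have := hj i h
      rw [h1] at hi'
      rw [this] at hi'
      exact lt_irrefl _ hi'
    · subst h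
      rw [h1] at hi'
      exact lt_irrefl _ (hi'.trans hj')
    · have h2 : c j x = c j y := hi j h
      have h3 : c j x = c j z := hxz j (by omega)
      rw [← h2, h3] at hj'
      exact lt_irrefl _ hj'
  · exact (hi l (by omega)).symm

/-- rank in the lexicographic order -/
noncomputable def rk (F : Finset α) (x : α) : ℕ := by
  classical exact (F.filter (fun y => sq c y < sq c x)).card

theorem rk_lt {F : Finset α} {x : α} (hx : x ∈ F) : rk c F x < F.card := by
  classical
  unfold rk
  apply Finset.card_lt_card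
  refine ⟨Finset.filter_subset _ _, fun h => ?_⟩
  have := h hx
  rw [Finset.mem_filter] at this
  exact lt_irrefl _ this.2

theorem rk_mono {F : Finset α} {x y : α} (h : sq c x ≤ sq c y) : rk c F x ≤ rk c F y := by
  classical
  unfold rk
  apply Finset.card_le_card
  intro z hz
  rw [Finset.mem_filter] at hz ⊢
  exact ⟨hz.1, lt_of_lt_of_le hz.2 h⟩

theorem rk_strict {F : Finset α} {x y : α} (hx : x ∈ F) (h : sq c x < sq c y) :
    rk c F x < rk c F y := by
  classical
  unfold rk
  apply Finset.card_lt_card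
  refine ⟨fun z hz => ?_, fun h' => ?_⟩
  · rw [Finset.mem_filter] at hz ⊢
    exact ⟨hz.1, hz.2.trans h⟩
  · have := h' (Finset.mem_filter.2 ⟨hx, h⟩)
    rw [Finset.mem_filter] at this
    exact lt_irrefl _ this.2

/-- label: rank divided by `m` -/
noncomputable def lab (F : Finset α) (m : ℕ) (x : α) : ℕ := rk c F x / m

theorem lab_le {F : Finset α} {m : ℕ} {x : α} (hx : x ∈ F) : lab c F m x ≤ F.card / m :=
  Nat.div_le_div_right (rk_lt c hx).le

theorem sq_lt_of_lab_lt {F : Finset α} {m : ℕ} {x y : α} (h : lab c F m x < lab c F m y) :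
    sq c x < sq c y := by
  by_contra hc
  have := rk_mono (F := F) c (not_lt.1 hc)
  have := Nat.div_le_div_right (c := m) this
  unfold lab at h
  omega

variable (hsep : ∀ x y : α, x ≠ y → ∃ k, c k x ≠ c k y)

include hsep in
theorem sq_inj {x y : α} (h : sq c x = sq c y) : x = y := by
  by_contra hne
  obtain ⟨k, hk⟩ := hsep x y hne
  exact hk (congrFun h k)

include hsep in
theorem card_lab {F : Finset α} {m : ℕ} (hm : 0 < m) (i : ℕ) [DecidableEq α] :
    (F.filter (fun x => lab c F m x = i)).card ≤ m := by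
  classical
  have : ((F.filter (fun x => lab c F m x = i)).image (rk c F)).card
      = (F.filter (fun x => lab c F m x = i)).card := by
    apply Finset.card_image_of_injOn
    intro x hx y hy hxy
    simp only [Finset.coe_filter, Set.mem_setOf_eq] at hx hy
    by_contra hne
    rcases lt_or_gt_of_ne (fun h => hne (sq_inj c hsep h) : sq c x ≠ sq c y) with h | h
    · have := rk_strict c hx.1 h
      omega
    · have := rk_strict c hy.1 h
      omega
  rw [← this]
  have h2 : ((F.filter (fun x => lab c F m x = i)).image (rk c F)) ⊆ Finset.Ico (i * m) (i * m + m) := by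
    intro r hr
    rw [Finset.mem_image] at hr
    obtain ⟨x, hx, rfl⟩ := hr
    rw [Finset.mem_filter] at hx
    have h3 := hx.2
    unfold lab at h3
    rw [Finset.mem_Ico]
    have h4 := Nat.div_add_mod (rk c F x) m
    have h5 := Nat.mod_lt (rk c F x) hm
    rw [h3] at h4
    constructor
    · rw [mul_comm]; omega
    · rw [mul_comm i m]; omega
  calc _ ≤ (Finset.Ico (i * m) (i * m + m)).card := Finset.card_le_card h2
    _ = m := by simp

variable (href : ∀ k x y, c (k+1) x = c (k+1) y → c k x = c k y)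

include href in
theorem ref_le {k l : ℕ} (h : l ≤ k) {x y : α} (hxy : c k x = c k y) : c l x = c l y := by
  induction k with
  | zero => 
    have : l = 0 := by omega
    subst this; exact hxy
  | succ k ih =>
    rcases Nat.lt_or_ge l (k+1) with h' | h'
    · exact ih (by omega) (href k x y hxy)
    · have : l = k + 1 := by omega
      subst this; exact hxy

include href in
/-- at most two classes meet a cube without being contained in it -/
theorem two_classes (F : Finset α) (m : ℕ) (k : ℕ) (z : β) (J : Finset ℕ)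
    (hJ : ∀ j ∈ J, (∃ y ∈ F, lab c F m y = j ∧ c k y = z) ∧ (∃ y ∈ F, lab c F m y = j ∧ c k y ≠ z)) :
    J.card ≤ 2 := by
  classical
  rcases J.eq_empty_or_nonempty with h0 | hne
  · simp [h0]
  have hsub : J ⊆ {J.min' hne, J.max' hne} := by
    intro j hj
    rw [Finset.mem_insert, Finset.mem_singleton]
    by_contra hcon
    push Not at hcon
    obtain ⟨⟨y, hy, hyj, hyz⟩, ⟨w, hw, hwj, hwz⟩⟩ := hJ j hj
    obtain ⟨⟨a, ha, haj, haz⟩, -⟩ := hJ _ (J.min'_mem hne)
    obtain ⟨⟨b, hb, hbj, hbz⟩, -⟩ := hJ _ (J.max'_mem hne)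
    have h1 : J.min' hne < j := lt_of_le_of_ne (J.min'_le j hj) (Ne.symm hcon.1)
    have h2 : j < J.max' hne := lt_of_le_of_ne (J.le_max' j hj) hcon.2
    have h3 : sq c a < sq c w := sq_lt_of_lab_lt (F := F) (m := m) c (by rw [haj, hwj]; exact h1)
    have h4 : sq c w < sq c b := sq_lt_of_lab_lt (F := F) (m := m) c (by rw [hbj, hwj]; exact h2)
    have h5 := sq_conv c h3 h4 k (fun l hl => ref_le c href hl (haz.trans hbz.symm)) k le_rfl
    exact hwz (h5.trans haz)
  calc J.card ≤ _ := Finset.card_le_card hsub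
    _ ≤ 2 := Finset.card_le_two

/-- the class `i` is split at level `k` -/
def Split (F : Finset α) (m : ℕ) (i k : ℕ) : Prop :=
  ∃ x ∈ F, ∃ y ∈ F, lab c F m x = i ∧ lab c F m y = i ∧ c k x ≠ c k y

include href in
theorem split_mono {F : Finset α} {m i k l : ℕ} (h : k ≤ l) (hs : Split c F m i k) :
    Split c F m i l := by
  obtain ⟨x, hx, y, hy, h1, h2, h3⟩ := hs
  exact ⟨x, hx, y, hy, h1, h2, fun h4 => h3 (ref_le c href h h4)⟩

include hsep href in
/-- one source class of type A sees at most `2 K` target classes -/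
theorem half_one [DecidableEq α] [DecidableEq β] (X Y : Finset α) (m1 m2 K : ℕ) (hK : 1 ≤ K) (R : Finset (α × α))
    (hR : ∀ p ∈ R, p.1 ∈ X ∧ p.2 ∈ Y)
    (hfun : ∀ p ∈ R, ∀ q ∈ R, p.1 = q.1 → p.2 = q.2)
    (hcode : ∀ k, ∀ S ⊆ R, (∀ p ∈ S, ∀ q ∈ S, ∀ l, l < k → c l p.1 = c l q.1) →
      (S.image (fun p => c k p.2)).card ≤ K) (i : ℕ) (J : Finset ℕ)
    (hJ : ∀ j ∈ J, (∃ p ∈ R, lab c X m1 p.1 = i ∧ lab c Y m2 p.2 = j) ∧
      ∀ k, Split c X m1 i k → Split c Y m2 j k) : J.card ≤ 2 * K := by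
  classical
  by_cases hs : ∃ k, Split c X m1 i k
  · set k := Nat.find hs with hk
    have hks : Split c X m1 i k := Nat.find_spec hs
    have hmin : ∀ l, l < k → ¬ Split c X m1 i l := fun l hl => Nat.find_min hs hl
    set S := R.filter (fun p => lab c X m1 p.1 = i) with hS
    have hSR : S ⊆ R := Finset.filter_subset _ _
    have hc := hcode k S hSR (by
      intro p hp q hq l hl
      rw [hS, Finset.mem_filter] at hp hq
      by_contra hne
      exact hmin l hl ⟨p.1, (hR p hp.1).1, q.1, (hR q hq.1).1, hp.2, hq.2, hne⟩)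
    have hsub : J ⊆ (S.image (fun p => c k p.2)).biUnion (fun z => J.filter (fun j =>
        ∃ y ∈ Y, lab c Y m2 y = j ∧ c k y = z)) := by
      intro j hj
      obtain ⟨⟨p, hp, hpi, hpj⟩, -⟩ := hJ j hj
      rw [Finset.mem_biUnion]
      refine ⟨c k p.2, Finset.mem_image_of_mem _ (Finset.mem_filter.2 ⟨hp, hpi⟩), ?_⟩
      rw [Finset.mem_filter]
      exact ⟨hj, p.2, (hR p hp).2, hpj, rfl⟩
    calc J.card ≤ _ := Finset.card_le_card hsub
      _ ≤ ∑ z ∈ S.image (fun p => c k p.2), (J.filter (fun j =>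
        ∃ y ∈ Y, lab c Y m2 y = j ∧ c k y = z)).card := Finset.card_biUnion_le
      _ ≤ ∑ z ∈ S.image (fun p => c k p.2), 2 := by
          apply Finset.sum_le_sum
          intro z hz
          apply two_classes c href Y m2 k z
          intro j hj
          rw [Finset.mem_filter] at hj
          refine ⟨hj.2, ?_⟩
          obtain ⟨x, hx, y, hy, h1, h2, h3⟩ := (hJ j hj.1).2 k hks
          by_cases hxz : c k x = z
          · exact ⟨y, hy, h2, fun h => h3 (hxz.trans h.symm)⟩
          · exact ⟨x, hx, h1, hxz⟩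
      _ = (S.image (fun p => c k p.2)).card * 2 := by rw [Finset.sum_const, smul_eq_mul]
      _ ≤ 2 * K := by omega
  · push Not at hs
    have : J.card ≤ 1 := by
      rw [Finset.card_le_one]
      intro j hj j' hj'
      obtain ⟨⟨p, hp, hpi, hpj⟩, -⟩ := hJ j hj
      obtain ⟨⟨q, hq, hqi, hqj⟩, -⟩ := hJ j' hj'
      have h1 : p.1 = q.1 := by
        by_contra hne
        obtain ⟨k, hk⟩ := hsep p.1 q.1 hne
        exact hs k ⟨p.1, (hR p hp).1, q.1, (hR q hq).1, hpi, hqi, hk⟩
      rw [← hpj, ← hqj, hfun p hp q hq h1]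
    omega

include hsep href in
/-- abstract crossing bound -/
theorem crossing [DecidableEq α] [DecidableEq β] (X Y : Finset α) (m1 m2 K : ℕ) (hK : 1 ≤ K) (R : Finset (α × α))
    (hR : ∀ p ∈ R, p.1 ∈ X ∧ p.2 ∈ Y)
    (hfun : ∀ p ∈ R, ∀ q ∈ R, p.1 = q.1 → p.2 = q.2)
    (hfun' : ∀ p ∈ R, ∀ q ∈ R, p.2 = q.2 → p.1 = q.1)
    (hcode : ∀ k, ∀ S ⊆ R, (∀ p ∈ S, ∀ q ∈ S, ∀ l, l < k → c l p.1 = c l q.1) →
      (S.image (fun p => c k p.2)).card ≤ K)
    (hcode' : ∀ k, ∀ S ⊆ R, (∀ p ∈ S, ∀ q ∈ S, ∀ l, l < k → c l p.2 = c l q.2) →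
      (S.image (fun p => c k p.1)).card ≤ K) :
    (R.image (fun p => (lab c X m1 p.1, lab c Y m2 p.2))).card
      ≤ 2 * K * (X.card / m1 + Y.card / m2 + 2) := by
  classical
  set V := R.image (fun p => (lab c X m1 p.1, lab c Y m2 p.2)) with hV
  set A := V.filter (fun v => ∀ k, Split c X m1 v.1 k → Split c Y m2 v.2 k) with hA
  set B := V.filter (fun v => ∀ k, Split c Y m2 v.2 k → Split c X m1 v.1 k) with hB
  have hAB : V ⊆ A ∪ B := by
    intro v hv
    rw [Finset.mem_union, hA, hB, Finset.mem_filter, Finset.mem_filter]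
    by_contra hcon
    push Not at hcon
    obtain ⟨h1, h2⟩ := hcon
    obtain ⟨k, hk1, hk2⟩ := h1 hv
    obtain ⟨l, hl1, hl2⟩ := h2 hv
    rcases le_total k l with h | h
    · exact hl2 (split_mono c href h hk1)
    · exact hk2 (split_mono c href h hl1)
  have hmemV : ∀ v ∈ V, ∃ p ∈ R, lab c X m1 p.1 = v.1 ∧ lab c Y m2 p.2 = v.2 := by
    intro v hv
    rw [hV, Finset.mem_image] at hv
    obtain ⟨p, hp, rfl⟩ := hv
    exact ⟨p, hp, rfl, rfl⟩
  have hAc : A.card ≤ (X.card / m1 + 1) * (2 * K) := by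
    have h1 : A.card = ∑ i ∈ Finset.range (X.card / m1 + 1), (A.filter (fun v => v.1 = i)).card := by
      apply Finset.card_eq_sum_card_fiberwise
      intro v hv
      rw [Finset.mem_coe, Finset.mem_filter] at hv
      obtain ⟨p, hp, h1, h2⟩ := hmemV v hv.1
      rw [Finset.coe_range, Set.mem_Iio]
      have := lab_le (m := m1) c (hR p hp).1
      omega
    rw [h1]
    calc _ ≤ ∑ i ∈ Finset.range (X.card / m1 + 1), 2 * K := by
          apply Finset.sum_le_sum
          intro i hi
          have h2 : (A.filter (fun v => v.1 = i)).card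
              = ((A.filter (fun v => v.1 = i)).image Prod.snd).card := by
            rw [Finset.card_image_of_injOn]
            intro v hv w hw hvw
            simp only [Finset.coe_filter, Set.mem_setOf_eq] at hv hw
            exact Prod.ext (hv.2.trans hw.2.symm) hvw
          rw [h2]
          apply half_one c hsep href X Y m1 m2 K hK R hR hfun hcode i
          intro j hj
          rw [Finset.mem_image] at hj
          obtain ⟨v, hv, rfl⟩ := hj
          rw [Finset.mem_filter, hA, Finset.mem_filter] at hv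
          obtain ⟨⟨hvV, hvA⟩, rfl⟩ := hv
          exact ⟨hmemV v hvV, hvA⟩
      _ = _ := by simp
  have hBc : B.card ≤ (Y.card / m2 + 1) * (2 * K) := by
    have h1 : B.card = ∑ i ∈ Finset.range (Y.card / m2 + 1), (B.filter (fun v => v.2 = i)).card := by
      apply Finset.card_eq_sum_card_fiberwise
      intro v hv
      rw [Finset.mem_coe, Finset.mem_filter] at hv
      obtain ⟨p, hp, h1, h2⟩ := hmemV v hv.1
      rw [Finset.coe_range, Set.mem_Iio]
      have := lab_le (m := m2) c (hR p hp).2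
      omega
    rw [h1]
    calc _ ≤ ∑ i ∈ Finset.range (Y.card / m2 + 1), 2 * K := by
          apply Finset.sum_le_sum
          intro i hi
          have h2 : (B.filter (fun v => v.2 = i)).card
              = ((B.filter (fun v => v.2 = i)).image Prod.fst).card := by
            rw [Finset.card_image_of_injOn]
            intro v hv w hw hvw
            simp only [Finset.coe_filter, Set.mem_setOf_eq] at hv hw
            exact Prod.ext hvw (hv.2.trans hw.2.symm)
          rw [h2]
          apply half_one c hsep href Y X m2 m1 K hK (R.image Prod.swap) ?_ ?_ ?_ i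
          · intro j hj
            rw [Finset.mem_image] at hj
            obtain ⟨v, hv, rfl⟩ := hj
            rw [Finset.mem_filter, hB, Finset.mem_filter] at hv
            obtain ⟨⟨hvV, hvB⟩, rfl⟩ := hv
            obtain ⟨p, hp, h1, h2⟩ := hmemV v hvV
            exact ⟨⟨p.swap, Finset.mem_image_of_mem _ hp, h2, h1⟩, hvB⟩
          · intro p hp
            rw [Finset.mem_image] at hp
            obtain ⟨q, hq, rfl⟩ := hp
            exact ⟨(hR q hq).2, (hR q hq).1⟩
          · intro p hp q hq hpq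
            rw [Finset.mem_image] at hp hq
            obtain ⟨p', hp', rfl⟩ := hp
            obtain ⟨q', hq', rfl⟩ := hq
            exact hfun' p' hp' q' hq' hpq
          · intro k S hS hSc
            have h3 := hcode' k (S.image Prod.swap) (by
              intro p hp
              rw [Finset.mem_image] at hp
              obtain ⟨q, hq, rfl⟩ := hp
              have := hS hq
              rw [Finset.mem_image] at this
              obtain ⟨r, hr, rfl⟩ := this
              simpa using hr) (by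
              intro p hp q hq l hl
              rw [Finset.mem_image] at hp hq
              obtain ⟨p', hp', rfl⟩ := hp
              obtain ⟨q', hq', rfl⟩ := hq
              exact hSc p' hp' q' hq' l hl)
            rw [Finset.image_image] at h3
            exact h3
      _ = _ := by simp
  calc V.card ≤ (A ∪ B).card := Finset.card_le_card hAB
    _ ≤ A.card + B.card := Finset.card_union_le _ _
    _ ≤ (X.card / m1 + 1) * (2 * K) + (Y.card / m2 + 1) * (2 * K) := by omega
    _ = 2 * K * (X.card / m1 + Y.card / m2 + 2) := by ring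

end Abstract

section Geom

/-- dyadic code of level `k`, scale `L` -/
noncomputable def cd (L : ℝ) (k : ℕ) (x : Fin 3 → ℝ) : Lex (Fin 3 → ℤ) :=
  toLex (fun i => ⌊x i * 2 ^ k / L⌋)

theorem cd_eq {L : ℝ} {k : ℕ} {x y : Fin 3 → ℝ} (h : cd L k x = cd L k y) (i : Fin 3) :
    ⌊x i * 2 ^ k / L⌋ = ⌊y i * 2 ^ k / L⌋ := congrFun h i

theorem cd_close {L : ℝ} (hL : 0 < L) {k : ℕ} {x y : Fin 3 → ℝ} (h : cd L k x = cd L k y) (i : Fin 3) :
    |x i - y i| * 2 ^ k < L := by
  have h1 := cd_eq h i
  have h2 := Int.abs_sub_lt_one_of_floor_eq_floor h1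
  have h3 : x i * 2 ^ k / L - y i * 2 ^ k / L = (x i - y i) * 2 ^ k / L := by ring
  rw [h3, abs_div, abs_mul, abs_of_pos hL, abs_of_pos (by positivity : (0:ℝ) < 2 ^ k),
    div_lt_one hL] at h2
  exact h2

theorem cd_sep {L : ℝ} (hL : 0 < L) (x y : Fin 3 → ℝ) (hne : x ≠ y) : ∃ k, cd L k x ≠ cd L k y := by
  by_contra hcon
  push Not at hcon
  apply hne
  funext i
  by_contra hi
  have hpos : 0 < |x i - y i| := abs_pos.2 (sub_ne_zero.2 hi)
  obtain ⟨k, hk⟩ := pow_unbounded_of_one_lt (L / |x i - y i|) (by norm_num : (1:ℝ) < 2)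
  have h1 := cd_close hL (hcon k) i
  rw [div_lt_iff₀ hpos] at hk
  nlinarith

theorem cd_ref {L : ℝ} (k : ℕ) (x y : Fin 3 → ℝ) (h : cd L (k+1) x = cd L (k+1) y) :
    cd L k x = cd L k y := by
  unfold cd
  congr 1
  funext i
  have h1 := cd_eq h i
  have h2 : ∀ t : ℝ, t * 2 ^ k / L = (t * 2 ^ (k+1) / L) / ((2:ℕ):ℝ) := by
    intro t
    push_cast
    rw [pow_succ]; ring
  rw [h2, h2, Int.floor_div_natCast, Int.floor_div_natCast, h1]

theorem img_card {L : ℝ} (k : ℕ) (S : Finset ((Fin 3 → ℝ) × (Fin 3 → ℝ)))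
    (f : (Fin 3 → ℝ) × (Fin 3 → ℝ) → Fin 3 → ℝ)
    (h : ∀ p ∈ S, ∀ q ∈ S, ∀ i, f p i * 2 ^ k / L - f q i * 2 ^ k / L < 4) :
    (S.image (fun p => cd L k (f p))).card ≤ 125 := by
  classical
  rcases S.eq_empty_or_nonempty with h0 | hne
  · subst h0; simp
  set mn : Fin 3 → ℤ := fun i => S.inf' hne (fun p => ⌊f p i * 2 ^ k / L⌋) with hmn
  have hsub : S.image (fun p => cd L k (f p)) ⊆
      (Fintype.piFinset (fun i => Finset.Icc (mn i) (mn i + 4))).image toLex := by
    intro z hz
    rw [Finset.mem_image] at hz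
    obtain ⟨p, hp, rfl⟩ := hz
    rw [Finset.mem_image]
    refine ⟨fun i => ⌊f p i * 2 ^ k / L⌋, ?_, rfl⟩
    rw [Fintype.mem_piFinset]
    intro i
    rw [Finset.mem_Icc]
    refine ⟨Finset.inf'_le _ hp, ?_⟩
    obtain ⟨q, hq, hq2⟩ := Finset.exists_mem_eq_inf' hne (fun p => ⌊f p i * 2 ^ k / L⌋)
    have h1 : mn i = ⌊f q i * 2 ^ k / L⌋ := hq2
    rw [h1]
    have h2 := h p hp q hq i
    have h3 := Int.floor_le (f p i * 2 ^ k / L)
    have h4 := Int.lt_floor_add_one (f q i * 2 ^ k / L)
    have h5 : ((⌊f p i * 2 ^ k / L⌋ : ℤ) : ℝ) < ((⌊f q i * 2 ^ k / L⌋ + 5 : ℤ) : ℝ) := by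
      push_cast
      linarith
    have h6 := Int.cast_lt.1 h5
    omega
  calc _ ≤ _ := Finset.card_le_card hsub
    _ ≤ _ := Finset.card_image_le
    _ = 125 := by
      rw [Fintype.card_piFinset]
      have h7 : ∀ x : Fin 3, (Finset.Icc (mn x) (mn x + 4)).card = 5 := by
        intro x
        rw [Int.card_Icc]
        omega
      simp only [h7]
      rfl

theorem dist_coord {a b a' b' : Fin 3 → ℝ} {t : ℝ} (ht : 0 < t)
    (h : ∑ i, (a i - b i) ^ 2 = ∑ i, (a' i - b' i) ^ 2) (hs : ∀ i, |a i - b i| < t) (i : Fin 3) :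
    a' i - b' i < 2 * t := by
  have h1 : ∀ i, (a i - b i) ^ 2 < t ^ 2 := by
    intro i
    rw [← sq_abs]
    exact pow_lt_pow_left₀ (hs i) (abs_nonneg _) (by norm_num)
  have h2 : (a' i - b' i) ^ 2 ≤ ∑ i, (a' i - b' i) ^ 2 :=
    Finset.single_le_sum (f := fun i => (a' i - b' i) ^ 2) (fun j _ => sq_nonneg _) (Finset.mem_univ i)
  rw [← h, Fin.sum_univ_three] at h2
  have h3 := h1 0
  have h4 := h1 1
  have h5 := h1 2
  by_contra hcon
  rw [not_lt] at hcon
  nlinarith

/-- **Elementary bounded partition.** Labels on `X` and `Y` with classes of at most `m1`, `m2`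
points such that every distance preserving relation between `X` and `Y` visits few pairs of
classes. -/
theorem zorder (X Y : Finset (Fin 3 → ℝ)) (m1 m2 : ℕ) (h1 : 0 < m1) (h2 : 0 < m2) :
    ∃ lX lY : (Fin 3 → ℝ) → ℕ,
      (∀ x ∈ X, lX x ≤ X.card / m1) ∧ (∀ y ∈ Y, lY y ≤ Y.card / m2) ∧
      (∀ i, (X.filter (fun x => lX x = i)).card ≤ m1) ∧
      (∀ j, (Y.filter (fun y => lY y = j)).card ≤ m2) ∧
      ∀ R : Finset ((Fin 3 → ℝ) × (Fin 3 → ℝ)), (∀ p ∈ R, p.1 ∈ X ∧ p.2 ∈ Y) →
        (∀ p ∈ R, ∀ q ∈ R, ∑ i, (p.1 i - q.1 i) ^ 2 = ∑ i, (p.2 i - q.2 i) ^ 2) →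
        (R.image (fun p => (lX p.1, lY p.2))).card ≤ 250 * (X.card / m1 + Y.card / m2 + 2) := by
  classical
  obtain ⟨L, hL, hLX⟩ : ∃ L : ℝ, 0 < L ∧ ∀ x ∈ X ∪ Y, ∀ i : Fin 3, |x i| < L := by
    refine ⟨1 + ∑ x ∈ X ∪ Y, ∑ i, |x i|, by positivity, ?_⟩
    intro x hx i
    have h3 : |x i| ≤ ∑ i, |x i| :=
      Finset.single_le_sum (f := fun i => |x i|) (fun j _ => abs_nonneg _) (Finset.mem_univ i)
    have h4 : ∑ i, |x i| ≤ ∑ x ∈ X ∪ Y, ∑ i, |x i| :=
      Finset.single_le_sum (f := fun x : Fin 3 → ℝ => ∑ i, |x i|)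
        (fun j _ => Finset.sum_nonneg (fun _ _ => abs_nonneg _)) hx
    linarith
  have hsep := cd_sep hL
  have href := fun k x y h => cd_ref (L := L) k x y h
  refine ⟨lab (cd L) X m1, lab (cd L) Y m2, fun x hx => lab_le _ hx, fun y hy => lab_le _ hy,
    fun i => ?_, fun j => ?_, ?_⟩
  · exact card_lab (cd L) hsep h1 i
  · exact card_lab (cd L) hsep h2 j
  · intro R hR hiso
    have hzero : ∀ a b : Fin 3 → ℝ, ∑ i, (a i - b i) ^ 2 = 0 → a = b := by
      intro a b h
      funext i
      have := (Finset.sum_eq_zero_iff_of_nonneg (fun j _ => sq_nonneg (a j - b j))).1 h i (Finset.mem_univ i)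
      have := pow_eq_zero_iff (by norm_num : 2 ≠ 0) |>.1 this
      linarith
    have key : ∀ (u v : (Fin 3 → ℝ) × (Fin 3 → ℝ) → Fin 3 → ℝ),
        (∀ p ∈ R, v p ∈ X ∪ Y) →
        (∀ p ∈ R, ∀ q ∈ R, ∑ i, (u p i - u q i) ^ 2 = ∑ i, (v p i - v q i) ^ 2) →
        ∀ k, ∀ S ⊆ R, (∀ p ∈ S, ∀ q ∈ S, ∀ l, l < k → cd L l (u p) = cd L l (u q)) →
        (S.image (fun p => cd L k (v p))).card ≤ 125 := by
      intro u v hv huv k S hS hSc
      apply img_card k S v
      intro p hp q hq i
      cases k with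
      | zero =>
        have h3 := hLX _ (hv p (hS hp)) i
        have h4 := hLX _ (hv q (hS hq)) i
        rw [abs_lt] at h3 h4
        rw [pow_zero, mul_one, mul_one, ← sub_div, div_lt_iff₀ hL]
        linarith
      | succ k =>
        have h3 := hSc p hp q hq k (Nat.lt_succ_self k)
        have h4 : ∀ i, |u p i - u q i| < L / 2 ^ k := by
          intro i
          rw [lt_div_iff₀ (by positivity)]
          exact cd_close hL h3 i
        have h5 := dist_coord (by positivity) (huv p (hS hp) q (hS hq)) h4 i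
        have h6 : (0:ℝ) < 2 ^ k := by positivity
        rw [← sub_div, ← sub_mul, div_lt_iff₀ hL, pow_succ]
        have h7 : (v p i - v q i) * (2 ^ k * 2) < (2 * (L / 2 ^ k)) * (2 ^ k * 2) :=
          mul_lt_mul_of_pos_right h5 (by positivity)
        have h8 : (2 * (L / 2 ^ k)) * (2 ^ k * 2) = 4 * L := by
          field_simp; ring
        linarith
    have := crossing (cd L) hsep href X Y m1 m2 125 (by norm_num) R hR
      (fun p hp q hq hpq => hzero _ _ (by rw [← hiso p hp q hq, hpq]; simp))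
      (fun p hp q hq hpq => hzero _ _ (by rw [hiso p hp q hq, hpq]; simp))
      (key Prod.fst Prod.snd (fun p hp => Finset.mem_union_right _ (hR p hp).2) hiso)
      (key Prod.snd Prod.fst (fun p hp => Finset.mem_union_left _ (hR p hp).1)
        (fun p hp q hq => (hiso p hp q hq).symm))
    exact this

end Geom

end Vale.Agent.P054.Y.ZO
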