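import Mathlib

/-! P054, theorem J, piece (B): Shearer's inequality for the four vertex stars of `K_4`. -/

namespace Vale.Agent.P054.Y

open Finset

/-- the edges of `K_4` at the vertex `i` -/
def eps : Fin 4 → Fin 3 → Fin 6 := ![![0, 1, 2], ![0, 3, 4], ![1, 3, 5], ![2, 4, 5]]

theorem shearer4 (A : Finset (Fin 6 → ℕ)) (B : Fin 4 → Finset (Fin 3 → ℕ))
    (h : ∀ γ ∈ A, ∀ i, (fun k => γ (eps i k)) ∈ B i) :
    #A ^ 2 ≤ #(B 0) * #(B 1) * (#(B 2) * #(B 3)) := by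
  classical
  let π : (Fin 6 → ℕ) → ℕ × ℕ × ℕ × ℕ := fun γ => (γ 1, γ 2, γ 3, γ 4)
  let X : ℕ × ℕ × ℕ × ℕ → Finset ℕ := fun m =>
    ((B 0).image fun β => β 0).filter fun x =>
      ![x, m.1, m.2.1] ∈ B 0 ∧ ![x, m.2.2.1, m.2.2.2] ∈ B 1
  let Y : ℕ × ℕ × ℕ × ℕ → Finset ℕ := fun m =>
    ((B 2).image fun β => β 2).filter fun y =>
      ![m.1, m.2.2.1, y] ∈ B 2 ∧ ![m.2.1, m.2.2.2, y] ∈ B 3
  let M := A.image π
  have e0 : ∀ γ : Fin 6 → ℕ, (fun k => γ (eps 0 k)) = ![γ 0, γ 1, γ 2] := by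
    intro γ; funext k; fin_cases k <;> rfl
  have e1 : ∀ γ : Fin 6 → ℕ, (fun k => γ (eps 1 k)) = ![γ 0, γ 3, γ 4] := by
    intro γ; funext k; fin_cases k <;> rfl
  have e2 : ∀ γ : Fin 6 → ℕ, (fun k => γ (eps 2 k)) = ![γ 1, γ 3, γ 5] := by
    intro γ; funext k; fin_cases k <;> rfl
  have e3 : ∀ γ : Fin 6 → ℕ, (fun k => γ (eps 3 k)) = ![γ 2, γ 4, γ 5] := by
    intro γ; funext k; fin_cases k <;> rfl
  have h1 : #A ≤ ∑ m ∈ M, #(X m) * #(Y m) := by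
    rw [card_eq_sum_card_fiberwise (f := π) (t := M) (fun γ hγ => mem_image_of_mem π hγ)]
    refine sum_le_sum fun m _ => ?_
    rw [← card_product]
    refine card_le_card_of_injOn (fun γ => (γ 0, γ 5)) (fun γ hγ => ?_) (fun γ hγ γ' hγ' hh => ?_)
    · obtain ⟨hA, hm⟩ := mem_filter.mp hγ
      subst hm
      refine mem_product.mpr ⟨mem_filter.mpr ⟨?_, ?_, ?_⟩, mem_filter.mpr ⟨?_, ?_, ?_⟩⟩
      · exact mem_image.mpr ⟨_, h γ hA 0, rfl⟩
      · have := h γ hA 0; rwa [e0] at this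
      · have := h γ hA 1; rwa [e1] at this
      · exact mem_image.mpr ⟨_, h γ hA 2, rfl⟩
      · have := h γ hA 2; rwa [e2] at this
      · have := h γ hA 3; rwa [e3] at this
    · obtain ⟨_, hm⟩ := mem_filter.mp hγ
      obtain ⟨_, hm'⟩ := mem_filter.mp hγ'
      have h5 : π γ = π γ' := hm.trans hm'.symm
      simp only [π, Prod.mk.injEq] at h5 hh
      funext k
      fin_cases k
      · exact hh.1
      · exact h5.1
      · exact h5.2.1
      · exact h5.2.2.1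
      · exact h5.2.2.2
      · exact hh.2
  have h2 : ∑ m ∈ M, #(X m) ^ 2 ≤ #(B 0) * #(B 1) := by
    have : ∑ m ∈ M, #(X m) ^ 2 = #(M.sigma fun m => X m ×ˢ X m) := by
      rw [card_sigma]
      exact sum_congr rfl fun m _ => by rw [card_product, sq]
    rw [this, ← card_product]
    refine card_le_card_of_injOn
      (fun p => (![p.2.1, p.1.1, p.1.2.1], ![p.2.2, p.1.2.2.1, p.1.2.2.2]))
      (fun p hp => ?_) (fun p _ p' _ hh => ?_)
    · obtain ⟨_, hp2⟩ := mem_sigma.mp hp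
      obtain ⟨hp3, hp4⟩ := mem_product.mp hp2
      exact mem_product.mpr ⟨(mem_filter.mp hp3).2.1, (mem_filter.mp hp4).2.2⟩
    · obtain ⟨⟨a, b, c, d⟩, x, y⟩ := p
      obtain ⟨⟨a', b', c', d'⟩, x', y'⟩ := p'
      simp only [Prod.mk.injEq] at hh
      obtain ⟨hh1, hh2⟩ := hh
      have t0 := congrFun hh1 0
      have t1 := congrFun hh1 1
      have t2 := congrFun hh1 2
      have t3 := congrFun hh2 0
      have t4 := congrFun hh2 1
      have t5 := congrFun hh2 2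
      simp at t0 t1 t2 t3 t4 t5
      subst t0 t1 t2 t3 t4 t5
      rfl
  have h3 : ∑ m ∈ M, #(Y m) ^ 2 ≤ #(B 2) * #(B 3) := by
    have : ∑ m ∈ M, #(Y m) ^ 2 = #(M.sigma fun m => Y m ×ˢ Y m) := by
      rw [card_sigma]
      exact sum_congr rfl fun m _ => by rw [card_product, sq]
    rw [this, ← card_product]
    refine card_le_card_of_injOn
      (fun p => (![p.1.1, p.1.2.2.1, p.2.1], ![p.1.2.1, p.1.2.2.2, p.2.2]))
      (fun p hp => ?_) (fun p _ p' _ hh => ?_)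
    · obtain ⟨_, hp2⟩ := mem_sigma.mp hp
      obtain ⟨hp3, hp4⟩ := mem_product.mp hp2
      exact mem_product.mpr ⟨(mem_filter.mp hp3).2.1, (mem_filter.mp hp4).2.2⟩
    · obtain ⟨⟨a, b, c, d⟩, x, y⟩ := p
      obtain ⟨⟨a', b', c', d'⟩, x', y'⟩ := p'
      simp only [Prod.mk.injEq] at hh
      obtain ⟨hh1, hh2⟩ := hh
      have t0 := congrFun hh1 0
      have t1 := congrFun hh1 1
      have t2 := congrFun hh1 2
      have t3 := congrFun hh2 0
      have t4 := congrFun hh2 1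
      have t5 := congrFun hh2 2
      simp at t0 t1 t2 t3 t4 t5
      subst t0 t1 t2 t3 t4 t5
      rfl
  have h4 : (∑ m ∈ M, #(X m) * #(Y m)) ^ 2 ≤ (∑ m ∈ M, #(X m) ^ 2) * ∑ m ∈ M, #(Y m) ^ 2 :=
    sum_mul_sq_le_sq_mul_sq M (fun m => #(X m)) (fun m => #(Y m))
  calc #A ^ 2 ≤ (∑ m ∈ M, #(X m) * #(Y m)) ^ 2 := Nat.pow_le_pow_left h1 2
    _ ≤ (∑ m ∈ M, #(X m) ^ 2) * ∑ m ∈ M, #(Y m) ^ 2 := h4
    _ ≤ #(B 0) * #(B 1) * (#(B 2) * #(B 3)) := Nat.mul_le_mul h2 h3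

end Vale.Agent.P054.Y
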