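import Mathlib

/-! P054, theorem J, piece (E): Hall's condition.  `G` points, `S1`, `S2` flats,
`q g 0, q g 1 ∈ S1`, `q g 2, q g 3 ∈ S2` for `g ∈ G`.  (E1) it is enough to prove
`|G| ≤ 5 |S1| |S2|` for configurations with Hall's condition; (E2) Hall's condition gives the
weighted sum inequality (layer cake, no matching needed). -/

namespace Vale.Agent.P054.Y

open Finset

variable {α β : Type*} [DecidableEq α] [DecidableEq β]

/-- the points on a flat of `F1` (as first or second flat) or of `F2` (third or fourth) -/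
def onF (q : α → Fin 4 → β) (G : Finset α) (F1 F2 : Finset β) : Finset α :=
  G.filter fun g => q g 0 ∈ F1 ∨ q g 1 ∈ F1 ∨ q g 2 ∈ F2 ∨ q g 3 ∈ F2

/-- configuration -/
def Conf (q : α → Fin 4 → β) (G : Finset α) (S1 S2 : Finset β) : Prop :=
  ∀ g ∈ G, q g 0 ∈ S1 ∧ q g 1 ∈ S1 ∧ q g 2 ∈ S2 ∧ q g 3 ∈ S2

/-- Hall's condition -/
def HallC (q : α → Fin 4 → β) (G : Finset α) (S1 S2 : Finset β) : Prop :=
  ∀ F1 F2 : Finset β, F1 ⊆ S1 → F2 ⊆ S2 →
    #S2 * #G * #F1 + #S1 * #G * #F2 ≤ 2 * #S1 * #S2 * #(onF q G F1 F2)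

theorem hall_induction (q : α → Fin 4 → β)
    (key : ∀ (G : Finset α) (S1 S2 : Finset β), Conf q G S1 S2 → HallC q G S1 S2 →
      #G ≤ 5 * (#S1 * #S2)) :
    ∀ (N : ℕ) (G : Finset α) (S1 S2 : Finset β), #S1 + #S2 ≤ N → Conf q G S1 S2 →
      #G ≤ 5 * (#S1 * #S2) := by
  intro N
  induction N using Nat.strong_induction_on with
  | _ N ih =>
    intro G S1 S2 hN hC
    by_cases hH : HallC q G S1 S2
    · exact key G S1 S2 hC hH
    · unfold HallC at hH
      push Not at hH
      obtain ⟨F1, F2, hF1, hF2, hlt⟩ := hH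
      set X := #(S1 \ F1) with hX
      set Y := #(S2 \ F2) with hY
      have hX' : X + #F1 = #S1 := card_sdiff_add_card_eq_card hF1
      have hY' : Y + #F2 = #S2 := card_sdiff_add_card_eq_card hF2
      have hpos : 0 < #F1 + #F2 := by
        by_contra hcon
        have h1 : #F1 = 0 := by omega
        have h2 : #F2 = 0 := by omega
        rw [h1, h2] at hlt
        simp at hlt
      have hG' : #(G \ onF q G F1 F2) ≤ 5 * (X * Y) := by
        refine ih (X + Y) (by omega) _ _ _ le_rfl ?_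
        intro g hg
        obtain ⟨hgG, hgn⟩ := mem_sdiff.mp hg
        have hgn' : ¬ (q g 0 ∈ F1 ∨ q g 1 ∈ F1 ∨ q g 2 ∈ F2 ∨ q g 3 ∈ F2) := fun h =>
          hgn (mem_filter.mpr ⟨hgG, h⟩)
        push Not at hgn'
        obtain ⟨h0, h1, h2, h3⟩ := hC g hgG
        exact ⟨mem_sdiff.mpr ⟨h0, hgn'.1⟩, mem_sdiff.mpr ⟨h1, hgn'.2.1⟩,
          mem_sdiff.mpr ⟨h2, hgn'.2.2.1⟩, mem_sdiff.mpr ⟨h3, hgn'.2.2.2⟩⟩
      have hGc : #(G \ onF q G F1 F2) + #(onF q G F1 F2) = #G :=
        card_sdiff_add_card_eq_card (filter_subset _ _)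
      -- real arithmetic
      by_contra hcon
      push Not at hcon
      zify at *
      have hx0 : (0 : ℤ) ≤ X := by positivity
      have hy0 : (0 : ℤ) ≤ Y := by positivity
      have hf1 : (0 : ℤ) ≤ #F1 := by positivity
      have hf2 : (0 : ℤ) ≤ #F2 := by positivity
      have hg0 : (0 : ℤ) ≤ #G := by positivity
      generalize (#G : ℤ) = g at *
      generalize (#(G \ onF q G F1 F2) : ℤ) = g' at *
      generalize (#(onF q G F1 F2) : ℤ) = gF at *
      generalize (X : ℤ) = x at *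
      generalize (Y : ℤ) = y at *
      generalize (#F1 : ℤ) = f1 at *
      generalize (#F2 : ℤ) = f2 at *
      generalize (#S1 : ℤ) = s1 at *
      generalize (#S2 : ℤ) = s2 at *
      have hs1 : 0 ≤ s1 := by linarith
      have hs2 : 0 ≤ s2 := by linarith
      have hs12 : 0 ≤ s1 * s2 := mul_nonneg hs1 hs2
      have e1 : f1 = s1 - x := by linarith
      have e2 : f2 = s2 - y := by linarith
      have e3 : gF = g - g' := by linarith
      subst e1 e2 e3
      have k1 : g * (s2 * x + s1 * y) < 2 * (s1 * s2) * g' := by nlinarith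
      have k2 : 2 * (s1 * s2) * g' ≤ 2 * (s1 * s2) * (5 * (x * y)) :=
        mul_le_mul_of_nonneg_left hG' (by linarith)
      have k3 : 2 * (x * y) ≤ s2 * x + s1 * y := by nlinarith
      have k4 : g * (2 * (x * y)) ≤ g * (s2 * x + s1 * y) := mul_le_mul_of_nonneg_left k3 hg0
      have k5 : 0 ≤ x * y := mul_nonneg hx0 hy0
      have k6 : 5 * (s1 * s2) * (2 * (x * y)) ≤ g * (2 * (x * y)) :=
        mul_le_mul_of_nonneg_right hcon.le (by linarith)
      linarith

omit [DecidableEq β] in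
theorem sum_eq_layers (S : Finset β) (T : β → ℕ) (L : ℕ) (hL : ∀ s ∈ S, T s ≤ L) :
    ∑ s ∈ S, T s = ∑ l ∈ range L, #(S.filter fun s => l < T s) := by
  have h1 : ∀ s ∈ S, T s = ∑ l ∈ range L, if l < T s then 1 else 0 := by
    intro s hs
    rw [← card_filter]
    have h2 : (range L).filter (fun l => l < T s) = range (T s) := by
      ext l
      rw [mem_filter, mem_range, mem_range]
      have := hL s hs
      omega
    rw [h2, card_range]
  rw [sum_congr rfl h1, sum_comm]
  exact sum_congr rfl fun l _ => by rw [card_filter]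

omit [DecidableEq α] in
theorem hall_layer (q : α → Fin 4 → β) (G : Finset α) (S1 S2 : Finset β)
    (hH : HallC q G S1 S2) (T : β → ℕ) (τ : α → ℕ)
    (hT : ∀ g ∈ G, ∀ i, T (q g i) ≤ τ g) :
    #G * (#S2 * ∑ s ∈ S1, T s + #S1 * ∑ s ∈ S2, T s) ≤ 2 * #S1 * #S2 * ∑ g ∈ G, τ g := by
  set L := (∑ s ∈ S1, T s) + (∑ s ∈ S2, T s) + ∑ g ∈ G, τ g with hL
  have hL1 : ∀ s ∈ S1, T s ≤ L := fun s hs => by
    have := single_le_sum (f := T) (fun _ _ => Nat.zero_le _) hs
    omega
  have hL2 : ∀ s ∈ S2, T s ≤ L := fun s hs => by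
    have := single_le_sum (f := T) (fun _ _ => Nat.zero_le _) hs
    omega
  have hL3 : ∀ g ∈ G, τ g ≤ L := fun g hg => by
    have := single_le_sum (f := τ) (fun _ _ => Nat.zero_le _) hg
    omega
  rw [sum_eq_layers S1 T L hL1, sum_eq_layers S2 T L hL2, sum_eq_layers G τ L hL3,
    mul_sum, mul_sum, ← sum_add_distrib, mul_sum, mul_sum]
  refine sum_le_sum fun l _ => ?_
  have h1 := hH (S1.filter fun s => l < T s) (S2.filter fun s => l < T s)
    (filter_subset _ _) (filter_subset _ _)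
  have h2 : onF q G (S1.filter fun s => l < T s) (S2.filter fun s => l < T s) ⊆
      G.filter fun g => l < τ g := by
    intro g hg
    obtain ⟨hgG, h3⟩ := mem_filter.mp hg
    refine mem_filter.mpr ⟨hgG, ?_⟩
    rcases h3 with h | h | h | h
    · exact lt_of_lt_of_le (mem_filter.mp h).2 (hT g hgG 0)
    · exact lt_of_lt_of_le (mem_filter.mp h).2 (hT g hgG 1)
    · exact lt_of_lt_of_le (mem_filter.mp h).2 (hT g hgG 2)
    · exact lt_of_lt_of_le (mem_filter.mp h).2 (hT g hgG 3)
  have h3 := Nat.mul_le_mul_left (2 * #S1 * #S2) (card_le_card h2)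
  refine le_trans (le_of_eq ?_) (h1.trans h3)
  ring

end Vale.Agent.P054.Y
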