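import Vale.Agent.P054.Y.JB
import Vale.Agent.P054.Y.JE

/-! P054, theorem J, piece (D): the potential argument and the limit `n → ∞`. -/

namespace Vale.Agent.P054.Y

open Finset

variable {α β : Type*} [DecidableEq α] [DecidableEq β]

/-- (D): minimiser of the potential.  `T a s` stands for `sum_t dim V_s(t,a)`, `b a g i` for
`#B_n(g,i)`. -/
theorem potential (q : α → Fin 4 → β) (G : Finset α) (S1 S2 : Finset β)
    (hC : Conf q G S1 S2) (hH : HallC q G S1 S2)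
    (h01 : ∀ g ∈ G, q g 0 ≠ q g 1) (h23 : ∀ g ∈ G, q g 2 ≠ q g 3)
    (D n1 : ℕ) (T : (α → ℕ) → β → ℕ) (b : (α → ℕ) → α → Fin 4 → ℕ)
    (hT1 : ∀ a, ∀ g ∈ G, ∀ i, T a (q g i) ≤ D * (a g + n1))
    (hT2 : ∀ a, ∀ g ∈ G, ∀ s, T a s ≤ T (Function.update a g (a g + 1)) s)
    (hb : ∀ a, ∀ g ∈ G, ∀ i,
      T a (q g i) + b a g i ≤ T (Function.update a g (a g + 1)) (q g i)) :
    ∃ a : α → ℕ, ∀ g ∈ G,
      #G * (#S2 * (b a g 0 + b a g 1) + #S1 * (b a g 2 + b a g 3)) ≤ 2 * #S1 * #S2 * D := by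
  classical
  let Q : (α → ℕ) → ℕ := fun a => #G * (#S2 * ∑ s ∈ S1, T a s + #S1 * ∑ s ∈ S2, T a s)
  let P : (α → ℕ) → ℕ := fun a => 2 * #S1 * #S2 * ∑ g ∈ G, D * (a g + n1)
  have hQP : ∀ a, Q a ≤ P a := fun a =>
    hall_layer q G S1 S2 hH (T a) (fun g => D * (a g + n1)) (hT1 a)
  let Ψ : (α → ℕ) → ℕ := fun a => P a - Q a
  obtain ⟨a, ha⟩ : ∃ a, ∀ a', Ψ a ≤ Ψ a' := by
    obtain ⟨v, ⟨a, hav⟩, hv⟩ := wellFounded_lt.has_min (Set.range Ψ) ⟨Ψ fun _ => 0, ⟨_, rfl⟩⟩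
    exact ⟨a, fun a' => by
      have := hv (Ψ a') ⟨a', rfl⟩
      rw [hav]
      exact not_lt.mp this⟩
  refine ⟨a, fun g hg => ?_⟩
  set a' := Function.update a g (a g + 1) with ha'
  have h1 := ha a'
  have hP : P a' = P a + 2 * #S1 * #S2 * D := by
    have h2 : ∑ g' ∈ G, D * (a' g' + n1) = ∑ g' ∈ G, D * (a g' + n1) + D := by
      rw [← sum_erase_add G _ hg, ← sum_erase_add G (fun g' => D * (a g' + n1)) hg]
      have h3 : ∑ g' ∈ G.erase g, D * (a' g' + n1) = ∑ g' ∈ G.erase g, D * (a g' + n1) := by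
        refine sum_congr rfl fun g' hg' => ?_
        rw [ha', Function.update_of_ne (ne_of_mem_erase hg')]
      rw [h3, ha', Function.update_self]
      ring
    simp only [P]
    rw [h2]
    ring
  have hS1 : ∑ s ∈ S1, T a s + (b a g 0 + b a g 1) ≤ ∑ s ∈ S1, T a' s := by
    obtain ⟨c0, c1, _, _⟩ := hC g hg
    have h4 : ({q g 0, q g 1} : Finset β) ⊆ S1 := by
      intro s hs
      rcases mem_insert.mp hs with h | h
      · rw [h]; exact c0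
      · rw [mem_singleton.mp h]; exact c1
    rw [← sum_sdiff h4, ← sum_sdiff (f := fun s => T a' s) h4, sum_pair (h01 g hg),
      sum_pair (h01 g hg)]
    have h5 : ∑ s ∈ S1 \ {q g 0, q g 1}, T a s ≤ ∑ s ∈ S1 \ {q g 0, q g 1}, T a' s :=
      sum_le_sum fun s _ => hT2 a g hg s
    have h6 := hb a g hg 0
    have h7 := hb a g hg 1
    rw [← ha'] at h6 h7
    omega
  have hS2 : ∑ s ∈ S2, T a s + (b a g 2 + b a g 3) ≤ ∑ s ∈ S2, T a' s := by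
    obtain ⟨_, _, c0, c1⟩ := hC g hg
    have h4 : ({q g 2, q g 3} : Finset β) ⊆ S2 := by
      intro s hs
      rcases mem_insert.mp hs with h | h
      · rw [h]; exact c0
      · rw [mem_singleton.mp h]; exact c1
    rw [← sum_sdiff h4, ← sum_sdiff (f := fun s => T a' s) h4, sum_pair (h23 g hg),
      sum_pair (h23 g hg)]
    have h5 : ∑ s ∈ S2 \ {q g 2, q g 3}, T a s ≤ ∑ s ∈ S2 \ {q g 2, q g 3}, T a' s :=
      sum_le_sum fun s _ => hT2 a g hg s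
    have h6 := hb a g hg 2
    have h7 := hb a g hg 3
    rw [← ha'] at h6 h7
    omega
  have hQ : Q a + #G * (#S2 * (b a g 0 + b a g 1) + #S1 * (b a g 2 + b a g 3)) ≤ Q a' := by
    have h8 := Nat.mul_le_mul_left (#S2) hS1
    have h9 := Nat.mul_le_mul_left (#S1) hS2
    have h10 := Nat.mul_le_mul_left (#G) (Nat.add_le_add h8 h9)
    refine le_trans (le_of_eq ?_) h10
    simp only [Q]
    ring
  have hQP' := hQP a'
  have hQPa := hQP a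
  simp only [Ψ] at h1
  omega

/-- AM-GM after Shearer -/
theorem amgm (G N1 N2 D A b0 b1 b2 b3 : ℕ) (hA : A ^ 2 ≤ b0 * b1 * (b2 * b3))
    (h : G * (N2 * (b0 + b1) + N1 * (b2 + b3)) ≤ 2 * N1 * N2 * D) (hN : 0 < N1 * N2) :
    4 * G ^ 2 * A ≤ N1 * N2 * D ^ 2 := by
  have h1 : (4 * A) ^ 2 ≤ ((b0 + b1) * (b2 + b3)) ^ 2 := by
    have e1 : 4 * (b0 * b1) ≤ (b0 + b1) ^ 2 := by nlinarith [sq_nonneg ((b0 : ℤ) - b1)]
    have e2 : 4 * (b2 * b3) ≤ (b2 + b3) ^ 2 := by nlinarith [sq_nonneg ((b2 : ℤ) - b3)]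
    calc (4 * A) ^ 2 = 16 * A ^ 2 := by ring
      _ ≤ 16 * (b0 * b1 * (b2 * b3)) := Nat.mul_le_mul_left 16 hA
      _ = (4 * (b0 * b1)) * (4 * (b2 * b3)) := by ring
      _ ≤ (b0 + b1) ^ 2 * (b2 + b3) ^ 2 := Nat.mul_le_mul e1 e2
      _ = ((b0 + b1) * (b2 + b3)) ^ 2 := by ring
  have h2 : 4 * A ≤ (b0 + b1) * (b2 + b3) := by
    exact (pow_le_pow_iff_left₀ (Nat.zero_le _) (Nat.zero_le _) two_ne_zero).mp h1
  have h3 : 4 * ((N2 * (b0 + b1)) * (N1 * (b2 + b3))) ≤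
      (N2 * (b0 + b1) + N1 * (b2 + b3)) ^ 2 := by
    nlinarith [sq_nonneg ((N2 * (b0 + b1) : ℤ) - (N1 * (b2 + b3) : ℤ))]
  have h4 : (G * (N2 * (b0 + b1) + N1 * (b2 + b3))) ^ 2 ≤ (2 * N1 * N2 * D) ^ 2 :=
    Nat.pow_le_pow_left h 2
  have h5 : (N1 * N2) * (4 * (4 * G ^ 2 * A)) ≤ (N1 * N2) * (4 * (N1 * N2 * D ^ 2)) := by
    calc (N1 * N2) * (4 * (4 * G ^ 2 * A)) = G ^ 2 * (4 * (N1 * N2 * (4 * A))) := by ring
      _ ≤ G ^ 2 * (4 * (N1 * N2 * ((b0 + b1) * (b2 + b3)))) :=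
          Nat.mul_le_mul_left _ (Nat.mul_le_mul_left _ (Nat.mul_le_mul_left _ h2))
      _ = G ^ 2 * (4 * ((N2 * (b0 + b1)) * (N1 * (b2 + b3)))) := by ring
      _ ≤ G ^ 2 * (N2 * (b0 + b1) + N1 * (b2 + b3)) ^ 2 := Nat.mul_le_mul_left _ h3
      _ = (G * (N2 * (b0 + b1) + N1 * (b2 + b3))) ^ 2 := by ring
      _ ≤ (2 * N1 * N2 * D) ^ 2 := h4
      _ = (N1 * N2) * (4 * (N1 * N2 * D ^ 2)) := by ring
  have h6 := Nat.le_of_mul_le_mul_left h5 hN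
  omega

theorem pow_six_le (k : ℕ) (hk : 1 ≤ k) : (k + 1) ^ 6 ≤ k ^ 6 + 63 * k ^ 5 := by
  have h1 : k ^ 4 ≤ k ^ 5 := Nat.pow_le_pow_right hk (by norm_num)
  have h2 : k ^ 3 ≤ k ^ 5 := Nat.pow_le_pow_right hk (by norm_num)
  have h3 : k ^ 2 ≤ k ^ 5 := Nat.pow_le_pow_right hk (by norm_num)
  have h4 : k ^ 1 ≤ k ^ 5 := Nat.pow_le_pow_right hk (by norm_num)
  have h5 : k ^ 0 ≤ k ^ 5 := Nat.pow_le_pow_right hk (by norm_num)
  have h6 : (k + 1) ^ 6 = k ^ 6 + 6 * k ^ 5 + 15 * k ^ 4 + 20 * k ^ 3 + 15 * k ^ 2 + 6 * k ^ 1 +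
      k ^ 0 := by ring
  rw [h6]
  omega

/-- the limit `n → ∞` -/
theorem limit_bound (g s m0 : ℕ)
    (h : ∀ n : ℕ, 4 * g * (n + 6).choose 6 ≤ s * ((n + m0 + 3).choose 3) ^ 2) :
    g ≤ 5 * s := by
  by_contra hcon
  push Not at hcon
  set c := m0 + 3 with hc
  set k := 315 * s + 1 with hk
  have h1 := h (c * k)
  have h2 : (c * k) ^ 6 ≤ 720 * (c * k + 6).choose 6 := by
    have h3 := Nat.pow_sub_le_descFactorial (c * k + 6) 6
    rw [Nat.descFactorial_eq_factorial_mul_choose] at h3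
    have h4 : (6 : ℕ).factorial = 720 := rfl
    rw [h4] at h3
    refine (Nat.pow_le_pow_left ?_ 6).trans h3
    omega
  have h5 : 6 * (c * k + m0 + 3).choose 3 ≤ (c * (k + 1)) ^ 3 := by
    have h3 := Nat.descFactorial_le_pow (c * k + m0 + 3) 3
    rw [Nat.descFactorial_eq_factorial_mul_choose] at h3
    have h4 : (3 : ℕ).factorial = 6 := rfl
    rw [h4] at h3
    refine h3.trans (le_of_eq ?_)
    congr 1
  have h6 : (6 * (c * k + m0 + 3).choose 3) ^ 2 ≤ ((c * (k + 1)) ^ 3) ^ 2 :=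
    Nat.pow_le_pow_left h5 2
  have h7 : c ^ 6 * (144 * (g * k ^ 6)) ≤ c ^ 6 * (720 * (s * (k + 1) ^ 6)) := by
    calc c ^ 6 * (144 * (g * k ^ 6)) = 144 * g * (c * k) ^ 6 := by ring
      _ ≤ 144 * g * (720 * (c * k + 6).choose 6) := Nat.mul_le_mul_left _ h2
      _ = 25920 * (4 * g * (c * k + 6).choose 6) := by ring
      _ ≤ 25920 * (s * ((c * k + m0 + 3).choose 3) ^ 2) := Nat.mul_le_mul_left _ h1
      _ = 720 * s * (6 * (c * k + m0 + 3).choose 3) ^ 2 := by ring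
      _ ≤ 720 * s * ((c * (k + 1)) ^ 3) ^ 2 := Nat.mul_le_mul_left _ h6
      _ = c ^ 6 * (720 * (s * (k + 1) ^ 6)) := by ring
  have hc6 : 0 < c ^ 6 := by positivity
  have h8 := Nat.le_of_mul_le_mul_left h7 hc6
  have h9 := pow_six_le k (by omega)
  have h10 : s * (k + 1) ^ 6 ≤ s * (k ^ 6 + 63 * k ^ 5) := Nat.mul_le_mul_left s h9
  have h11 : (5 * s + 1) * k ^ 6 ≤ g * k ^ 6 := Nat.mul_le_mul_right _ hcon
  have h12 : k ^ 5 * k ≤ k ^ 5 * (315 * s) := by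
    have e1 : (5 * s + 1) * k ^ 6 = 5 * (s * k ^ 6) + k ^ 5 * k := by ring
    have e2 : s * (k ^ 6 + 63 * k ^ 5) = s * k ^ 6 + 63 * (s * k ^ 5) := by ring
    have e3 : k ^ 5 * (315 * s) = 315 * (s * k ^ 5) := by ring
    rw [e1] at h11
    rw [e2] at h10
    rw [e3]
    omega
  have hk5 : 0 < k ^ 5 := by positivity
  have h13 := Nat.le_of_mul_le_mul_left h12 hk5
  omega

end Vale.Agent.P054.Y
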