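import Vale.Agent.P054.W.Flat
import Vale.Agent.P054.W.Partition

/-! P054: the Szemeredi-Trotter theorem for `k`-rich lines (no logarithms), by polynomial
partitioning of the plane. Points `a ∈ M` with coordinates `(u a, v a)`, `u` injective on `M`,
non-vertical lines `l = (slope, intercept)`. -/

set_option linter.all false
set_option autoImplicit false

namespace Vale.Agent.P054.Y.ST

open Finset MvPolynomial

/-- restriction of a polynomial to a line -/
noncomputable def res (l : ℝ × ℝ) (f : MvPolynomial (Fin 2) ℝ) : Polynomial ℝ :=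
  aeval ![Polynomial.X, Polynomial.C l.1 * Polynomial.X + Polynomial.C l.2] f

theorem eval_aeval_pair (p q : Polynomial ℝ) (f : MvPolynomial (Fin 2) ℝ) (t : ℝ) :
    (aeval ![p, q] f).eval t = eval ![p.eval t, q.eval t] f := by
  induction f using MvPolynomial.induction_on with
  | C a => simp
  | add f g hf hg => simp [hf, hg]
  | mul_X f i hf =>
    simp only [map_mul, aeval_X, Polynomial.eval_mul, hf, eval_X]
    fin_cases i <;> simp

theorem vec_eta (z : Fin 2 → ℝ) : ![z 0, z 1] = z := by
  ext i
  fin_cases i <;> rfl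

theorem res_eval (l : ℝ × ℝ) (f : MvPolynomial (Fin 2) ℝ) (t : ℝ) :
    (res l f).eval t = eval ![t, l.1 * t + l.2] f := by
  unfold res
  rw [eval_aeval_pair]
  simp

theorem natDegree_pair_le (p q : Polynomial ℝ) (hp : p.natDegree ≤ 1) (hq : q.natDegree ≤ 1)
    (f : MvPolynomial (Fin 2) ℝ) : (aeval ![p, q] f).natDegree ≤ f.totalDegree := by
  have h := MvPolynomial.aeval_natDegree_le (m := f.totalDegree) (n := 1) f le_rfl ![p, q]
    (by intro i; fin_cases i <;> simpa)
  simpa using h

theorem natDegree_res_le (l : ℝ × ℝ) (f : MvPolynomial (Fin 2) ℝ) :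
    (res l f).natDegree ≤ f.totalDegree := by
  refine natDegree_pair_le _ _ (by simp) ?_ f
  exact (Polynomial.natDegree_linear_le)

theorem lines_in_curve (f : MvPolynomial (Fin 2) ℝ) (hf : f ≠ 0) (L : Finset (ℝ × ℝ))
    (hL : ∀ l ∈ L, res l f = 0) : #L ≤ f.totalDegree := by
  classical
  -- a vertical line on which `f` is not identically zero
  obtain ⟨z, hz⟩ : ∃ z : Fin 2 → ℝ, eval z f ≠ 0 := by
    by_contra hcon
    push Not at hcon
    exact hf (MvPolynomial.funext (fun z => by rw [hcon z, map_zero]))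
  set q : Polynomial ℝ := aeval ![Polynomial.X, Polynomial.C (z 1)] f with hq
  have hq0 : q ≠ 0 := by
    intro h
    apply hz
    have h1 : q.eval (z 0) = 0 := by rw [h, Polynomial.eval_zero]
    rw [hq, eval_aeval_pair, Polynomial.eval_X, Polynomial.eval_C, vec_eta] at h1
    exact h1
  set bad : Finset ℝ := q.roots.toFinset ∪
    (L ×ˢ L).image (fun p => (p.2.2 - p.1.2) / (p.1.1 - p.2.1)) with hbad
  obtain ⟨x0, hx0⟩ := Infinite.exists_notMem_finset bad
  rw [hbad, mem_union, not_or] at hx0
  set p : Polynomial ℝ := aeval ![Polynomial.C x0, Polynomial.X] f with hp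
  have hp0 : p ≠ 0 := by
    intro h
    apply hx0.1
    rw [Multiset.mem_toFinset, Polynomial.mem_roots hq0, Polynomial.IsRoot.def, hq, eval_aeval_pair,
      Polynomial.eval_X, Polynomial.eval_C]
    have h1 : p.eval (z 1) = 0 := by rw [h, Polynomial.eval_zero]
    rw [hp, eval_aeval_pair, Polynomial.eval_X, Polynomial.eval_C] at h1
    exact h1
  have hinj : Set.InjOn (fun l : ℝ × ℝ => l.1 * x0 + l.2) (L : Set (ℝ × ℝ)) := by
    intro l hl l' hl' h
    simp only at h
    by_cases h1 : l.1 = l'.1
    · refine Prod.ext h1 ?_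
      rw [h1] at h
      linarith
    · exfalso
      apply hx0.2
      rw [mem_image]
      refine ⟨(l, l'), mem_product.mpr ⟨hl, hl'⟩, ?_⟩
      have h2 : l.1 - l'.1 ≠ 0 := sub_ne_zero.mpr h1
      simp only
      rw [div_eq_iff h2]
      linarith
  have hsub : L.image (fun l : ℝ × ℝ => l.1 * x0 + l.2) ⊆ p.roots.toFinset := by
    intro y hy
    obtain ⟨l, hl, rfl⟩ := mem_image.mp hy
    rw [Multiset.mem_toFinset, Polynomial.mem_roots hp0, Polynomial.IsRoot.def, hp, eval_aeval_pair,
      Polynomial.eval_X, Polynomial.eval_C]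
    have h1 : (res l f).eval x0 = 0 := by rw [hL l hl, Polynomial.eval_zero]
    rw [res_eval] at h1
    exact h1
  calc #L = #(L.image (fun l : ℝ × ℝ => l.1 * x0 + l.2)) := (card_image_of_injOn hinj).symm
    _ ≤ #(p.roots.toFinset) := card_le_card hsub
    _ ≤ p.natDegree := (Multiset.toFinset_card_le _).trans (Polynomial.card_roots' p)
    _ ≤ f.totalDegree := natDegree_pair_le _ _ (by simp) (by simp) f

end Vale.Agent.P054.Y.ST
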