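import Vale.Agent.P054.Y.ST

set_option linter.all false
set_option autoImplicit false

namespace Vale.Agent.P054.Y.ST

open Finset MvPolynomial

open scoped Classical in
theorem cells_on_line (g : ℕ → MvPolynomial (Fin 2) ℝ) (J D : ℕ)
    (hD : ∑ j ∈ range J, (g j).totalDegree ≤ D) (l : ℝ × ℝ) (T : Finset ℝ)
    (hT : ∀ t ∈ T, ∀ j < J, eval ![t, l.1 * t + l.2] (g j) ≠ 0) :
    #(T.image (fun t => (fun j : Fin J => decide (0 < eval ![t, l.1 * t + l.2] (g j)))))
      ≤ 2 * D + 1 := by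
  have key : ∀ t : ℝ, (fun i => eval (fun _ : Fin 1 => t)
      ((![X 0, C l.1 * X 0 + C l.2] : Fin 2 → MvPolynomial (Fin 1) ℝ) i)) =
      ![t, l.1 * t + l.2] := by
    intro t
    ext i
    fin_cases i <;> simp
  have h := W.card_cells_param_le (fun j : Fin J => g j)
    (![X 0, C l.1 * X 0 + C l.2] : Fin 2 → MvPolynomial (Fin 1) ℝ) 1 ?_ D ?_
    (T.image (fun t => (fun j : Fin J => decide (0 < eval ![t, l.1 * t + l.2] (g j))))) ?_
  · simpa using h
  · intro i
    fin_cases i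
    · simp
    · refine (totalDegree_add _ _).trans ?_
      simp only [totalDegree_C, max_le_iff]
      refine ⟨(totalDegree_mul _ _).trans ?_, by norm_num⟩
      simp
  · rw [← Finset.sum_range (fun j => (g j).totalDegree)]
    exact hD
  · intro c hc
    obtain ⟨t, ht, rfl⟩ := mem_image.mp hc
    refine ⟨fun _ => t, fun j => ?_⟩
    rw [key t]
    refine ⟨hT t ht j j.2, ?_⟩
    simp

theorem zeros_on_line (g : ℕ → MvPolynomial (Fin 2) ℝ) (J D : ℕ)
    (hD : ∑ j ∈ range J, (g j).totalDegree ≤ D) (l : ℝ × ℝ)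
    (hne : ∀ j < J, res l (g j) ≠ 0) (T : Finset ℝ)
    (hT : ∀ t ∈ T, ∃ j < J, eval ![t, l.1 * t + l.2] (g j) = 0) : #T ≤ D := by
  classical
  have hsub : T ⊆ (range J).biUnion (fun j => (res l (g j)).roots.toFinset) := by
    intro t ht
    obtain ⟨j, hj, h⟩ := hT t ht
    rw [mem_biUnion]
    refine ⟨j, mem_range.mpr hj, ?_⟩
    rw [Multiset.mem_toFinset, Polynomial.mem_roots (hne j hj), Polynomial.IsRoot.def, res_eval]
    exact h
  refine (card_le_card hsub).trans (card_biUnion_le.trans (le_trans (sum_le_sum ?_) hD))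
  intro j _
  exact ((Multiset.toFinset_card_le _).trans (Polynomial.card_roots' _)).trans
    (natDegree_res_le l (g j))

variable {α : Type*}

/-- incidence -/
def On (u v : α → ℝ) (l : ℝ × ℝ) (a : α) : Prop := v a = l.1 * u a + l.2

theorem on_unique (u v : α → ℝ) {l l' : ℝ × ℝ} {a b : α} (hab : u a ≠ u b)
    (h1 : On u v l a) (h2 : On u v l b) (h3 : On u v l' a) (h4 : On u v l' b) : l = l' := by
  unfold On at *
  have h5 : (l.1 - l'.1) * (u a - u b) = 0 := by linear_combination h3 - h4 - h1 + h2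
  have h6 : u a - u b ≠ 0 := sub_ne_zero.mpr hab
  have h7 : l.1 = l'.1 := sub_eq_zero.mp ((mul_eq_zero.mp h5).resolve_right h6)
  refine Prod.ext h7 ?_
  rw [h7] at h1
  linarith

open scoped Classical in
theorem same_cell {β : Type*} (A : Finset α) (S : α → β) :
    #A ^ 2 ≤ #(A.image S) * (#((A ×ˢ A).filter (fun p => p.1 ≠ p.2 ∧ S p.1 = S p.2)) + #A) := by
  have h1 : #A = ∑ c ∈ A.image S, #(A.filter (fun a => S a = c)) := card_eq_sum_card_image S A
  have h2 : (∑ c ∈ A.image S, #(A.filter (fun a => S a = c))) ^ 2 ≤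
      #(A.image S) * ∑ c ∈ A.image S, #(A.filter (fun a => S a = c)) ^ 2 :=
    sq_sum_le_card_mul_sum_sq
  have h3 : ∑ c ∈ A.image S, #(A.filter (fun a => S a = c)) ^ 2 =
      #((A ×ˢ A).filter (fun p => S p.1 = S p.2)) := by
    rw [card_eq_sum_card_fiberwise (f := fun p : α × α => S p.1) (t := A.image S)]
    · refine sum_congr rfl fun c hc => ?_
      rw [sq, ← card_product]
      congr 1
      ext p
      simp only [mem_product, mem_filter]
      constructor
      · rintro ⟨⟨h1, h2⟩, h3, h4⟩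
        exact ⟨⟨⟨h1, h3⟩, h2.trans h4.symm⟩, h2⟩
      · rintro ⟨⟨⟨h1, h3⟩, h4⟩, h2⟩
        exact ⟨⟨h1, h2⟩, h3, h4 ▸ h2⟩
    · intro p hp
      have hp' := mem_filter.mp hp
      exact mem_coe.mpr (mem_image_of_mem S (mem_product.mp hp'.1).1)
  have h4 : (A ×ˢ A).filter (fun p => S p.1 = S p.2) ⊆
      ((A ×ˢ A).filter (fun p => p.1 ≠ p.2 ∧ S p.1 = S p.2)) ∪ A.image (fun a => (a, a)) := by
    intro p hp
    rw [mem_filter] at hp
    rw [mem_union, mem_filter, mem_image]
    by_cases h : p.1 = p.2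
    · right
      exact ⟨p.1, (mem_product.mp hp.1).1, Prod.ext rfl h⟩
    · left
      exact ⟨hp.1, h, hp.2⟩
  have h5 := (card_le_card h4).trans (card_union_le _ _)
  have h6 : #(A.image (fun a => (a, a))) ≤ #A := card_image_le
  calc #A ^ 2 = (∑ c ∈ A.image S, #(A.filter (fun a => S a = c))) ^ 2 := by rw [← h1]
    _ ≤ #(A.image S) * ∑ c ∈ A.image S, #(A.filter (fun a => S a = c)) ^ 2 := h2
    _ = #(A.image S) * #((A ×ˢ A).filter (fun p => S p.1 = S p.2)) := by rw [h3]
    _ ≤ _ := Nat.mul_le_mul_left _ (h5.trans (Nat.add_le_add_left h6 _))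

end Vale.Agent.P054.Y.ST
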