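import Vale.Agent.P054.Y.STb

set_option linter.all false
set_option autoImplicit false

namespace Vale.Agent.P054.Y.ST

open Finset MvPolynomial

variable {α : Type*}

open scoped Classical in
/-- one partitioning step -/
theorem st_key (M : Finset α) (u v : α → ℝ) (hu : Set.InjOn u (M : Set α)) (L : Finset (ℝ × ℝ))
    (k m : ℕ) (hk : 64 * 2 ^ m ≤ k) (hL : ∀ l ∈ L, k ≤ #(M.filter (On u v l))) :
    (#L : ℝ) * k ^ 2 ≤ 8 * 2 ^ m * k ^ 2 + 45 * #M ^ 2 / 2 ^ m := by
  obtain ⟨g, hg0, hgD, hgc⟩ := W.poly_partition_dim (f := 2) (by norm_num)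
    (fun a : α => (![u a, v a] : Fin 2 → ℝ)) M m
  set J : ℕ := 2 * m with hJ
  set D : ℕ := 8 * 2 ^ m with hDdef
  have hgD' : ∑ j ∈ range J, (g j).totalDegree ≤ D := by
    refine hgD.trans (le_of_eq ?_)
    rw [hDdef]
    norm_num
  set Lb := L.filter (fun l => ∃ j < J, res l (g j) = 0) with hLb
  set Lg := L.filter (fun l => ¬ ∃ j < J, res l (g j) = 0) with hLg
  have hcard : #Lb + #Lg = #L := card_filter_add_card_filter_not _
  have hbad : #Lb ≤ D := by
    have hsub : Lb ⊆ (range J).biUnion (fun j => L.filter (fun l => res l (g j) = 0)) := by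
      intro l hl
      obtain ⟨h1, j, hj, h2⟩ := mem_filter.mp hl
      exact mem_biUnion.mpr ⟨j, mem_range.mpr hj, mem_filter.mpr ⟨h1, h2⟩⟩
    refine (card_le_card hsub).trans (card_biUnion_le.trans (le_trans (sum_le_sum ?_) hgD'))
    intro j _
    exact lines_in_curve (g j) (hg0 j) _ (fun l hl => (mem_filter.mp hl).2)
  -- open points
  set O := M.filter (fun a => ∀ j < J, eval ![u a, v a] (g j) ≠ 0) with hO
  set S : α → (Fin J → Bool) := fun a => fun j => decide (0 < eval ![u a, v a] (g j)) with hS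
  set A : ℝ × ℝ → Finset α := fun l => O.filter (On u v l) with hA
  set E : ℝ × ℝ → Finset (α × α) := fun l =>
    ((A l) ×ˢ (A l)).filter (fun p => p.1 ≠ p.2 ∧ S p.1 = S p.2) with hE
  have hAM : ∀ l, A l ⊆ M := fun l => (filter_subset _ _).trans (filter_subset _ _)
  -- lower bound for good lines
  have hlow : ∀ l ∈ Lg, (k : ℝ) ^ 2 ≤ 45 * 2 ^ m * #(E l) := by
    intro l hl
    obtain ⟨hlL, hlg⟩ := mem_filter.mp hl
    push Not at hlg
    have h1 : k ≤ #(A l) + D := by
      refine (hL l hlL).trans ?_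
      have h2 : M.filter (On u v l) ⊆ A l ∪
          (M.filter (On u v l)).filter (fun a => ∃ j < J, eval ![u a, v a] (g j) = 0) := by
        intro a ha
        obtain ⟨haM, hal⟩ := mem_filter.mp ha
        rw [mem_union, mem_filter, mem_filter, mem_filter]
        by_cases h : ∃ j < J, eval ![u a, v a] (g j) = 0
        · right
          exact ⟨ha, h⟩
        · left
          push Not at h
          exact ⟨⟨haM, h⟩, hal⟩
      refine (card_le_card h2).trans ((card_union_le _ _).trans (Nat.add_le_add_left ?_ _))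
      set W := (M.filter (On u v l)).filter (fun a => ∃ j < J, eval ![u a, v a] (g j) = 0) with hW
      have hinj : Set.InjOn u (W : Set α) := by
        refine hu.mono ?_
        intro a ha
        exact (mem_filter.mp (mem_filter.mp ha).1).1
      rw [← card_image_of_injOn hinj]
      refine zeros_on_line g J D hgD' l hlg _ ?_
      intro t ht
      obtain ⟨a, ha, rfl⟩ := mem_image.mp ht
      obtain ⟨ha1, j, hj, h3⟩ := mem_filter.mp ha
      refine ⟨j, hj, ?_⟩
      have h4 : v a = l.1 * u a + l.2 := (mem_filter.mp ha1).2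
      rw [← h4]
      exact h3
    have h2 : #((A l).image S) ≤ 2 * D + 1 := by
      have h3 := cells_on_line g J D hgD' l ((A l).image u) ?_
      · refine le_trans (card_le_card ?_) h3
        intro c hc
        obtain ⟨a, ha, rfl⟩ := mem_image.mp hc
        rw [mem_image]
        refine ⟨u a, mem_image_of_mem u ha, ?_⟩
        have h4 : v a = l.1 * u a + l.2 := (mem_filter.mp ha).2
        rw [← h4]
      · intro t ht j hj
        obtain ⟨a, ha, rfl⟩ := mem_image.mp ht
        have h4 : v a = l.1 * u a + l.2 := (mem_filter.mp ha).2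
        rw [← h4]
        exact (mem_filter.mp (mem_filter.mp ha).1).2 j hj
    have h3 : #(A l) ^ 2 ≤ #((A l).image S) * (#(E l) + #(A l)) := by
      have e1 : ∀ X Y : Finset (Fin J → Bool), (∀ c, c ∈ X ↔ c ∈ Y) → #X = #Y :=
        fun X Y h => by rw [Finset.ext h]
      have e2 : ∀ X Y : Finset (α × α), (∀ c, c ∈ X ↔ c ∈ Y) → #X = #Y :=
        fun X Y h => by rw [Finset.ext h]
      have e3 : ∀ a b c d e : ℕ, a = b → c = d → a * (c + e) = b * (d + e) := by
        rintro a b c d e rfl rfl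
        rfl
      refine le_trans (same_cell (A l) S) (le_of_eq (e3 _ _ _ _ _ (e1 _ _ ?_) (e2 _ _ ?_)))
      · intro c
        simp only [mem_image]
      · intro c
        simp only [hE, mem_filter]
    have h4 : (#(A l) : ℝ) ^ 2 ≤ (2 * D + 1) * (#(E l) + #(A l)) := by
      have h5 : #(A l) ^ 2 ≤ (2 * D + 1) * (#(E l) + #(A l)) :=
        h3.trans (Nat.mul_le_mul_right _ h2)
      exact_mod_cast h5
    have h5 : (k : ℝ) ≤ #(A l) + 8 * 2 ^ m := by
      have : (k : ℝ) ≤ ((#(A l) + D : ℕ) : ℝ) := by exact_mod_cast h1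
      rw [hDdef] at this
      push_cast at this
      exact this
    have h6 : (64 : ℝ) * 2 ^ m ≤ k := by exact_mod_cast hk
    have h7 : ((D : ℕ) : ℝ) = 8 * 2 ^ m := by rw [hDdef]; push_cast; ring
    rw [h7] at h4
    have hP : (1 : ℝ) ≤ 2 ^ m := one_le_pow₀ (by norm_num)
    generalize (2 : ℝ) ^ m = P at *
    generalize (#(A l) : ℝ) = x at *
    generalize (#(E l) : ℝ) = e at *
    generalize (k : ℝ) = κ at *
    -- x ≥ 7κ/8, x ≥ 56 P, x² ≤ 17 P (e + x)
    have h8 : 7 * κ ≤ 8 * x := by linarith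
    have h9 : 56 * P ≤ x := by linarith
    have hx0 : 0 ≤ x := by linarith
    have h10 : x ^ 2 ≤ 17 * P * e + 17 * P * x := by
      by_cases he : 0 ≤ e + x
      · nlinarith
      · nlinarith [sq_nonneg x]
    have h11 : 17 * P * x ≤ 17 / 56 * x ^ 2 := by nlinarith
    have hκ0 : 0 ≤ κ := by linarith
    nlinarith [mul_self_nonneg (8 * x - 7 * κ)]
  -- upper bound
  have hup : ∑ l ∈ Lg, #(E l) * 4 ^ m ≤ #M ^ 2 := by
    have hdis : Set.PairwiseDisjoint (Lg : Set (ℝ × ℝ)) E := by
      intro l hl l' hl' hne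
      rw [Function.onFun, Finset.disjoint_left]
      intro p hp hp'
      apply hne
      obtain ⟨h1, h2, _⟩ := mem_filter.mp hp
      obtain ⟨h1', _, _⟩ := mem_filter.mp hp'
      obtain ⟨ha, hb⟩ := mem_product.mp h1
      obtain ⟨ha', hb'⟩ := mem_product.mp h1'
      refine on_unique u v (a := p.1) (b := p.2) ?_ (mem_filter.mp ha).2 (mem_filter.mp hb).2
        (mem_filter.mp ha').2 (mem_filter.mp hb').2
      intro h
      exact h2 (hu (hAM l ha) (hAM l hb) h)
    rw [← sum_mul, ← card_biUnion hdis]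
    have hsub : Lg.biUnion E ⊆ (O.sigma (fun a => O.filter (fun b => S a = S b))).image
        (fun p => (p.1, p.2)) := by
      intro p hp
      obtain ⟨l, _, hp⟩ := mem_biUnion.mp hp
      obtain ⟨h1, _, h2⟩ := mem_filter.mp hp
      obtain ⟨ha, hb⟩ := mem_product.mp h1
      refine mem_image.mpr ⟨⟨p.1, p.2⟩, ?_, rfl⟩
      exact mem_sigma.mpr ⟨(mem_filter.mp ha).1, mem_filter.mpr ⟨(mem_filter.mp hb).1, h2⟩⟩
    have hcell : ∀ a ∈ O, #(O.filter (fun b => S a = S b)) * 4 ^ m ≤ #M := by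
      intro a ha
      have h1 := hgc (fun j => decide (0 < eval ![u a, v a] (g j)))
      have h2 : O.filter (fun b => S a = S b) ⊆ {b ∈ M | ∀ j < 2 * m, P041.SE.Sg
          (decide (0 < eval ![u a, v a] (g j))) (eval ![u b, v b] (g j))} := by
        intro b hb
        obtain ⟨hbO, hab⟩ := mem_filter.mp hb
        obtain ⟨hbM, hb0⟩ := mem_filter.mp hbO
        refine mem_filter.mpr ⟨hbM, fun j hj => ?_⟩
        have h3 := congrFun hab ⟨j, hj⟩
        simp only [hS] at h3
        rw [h3]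
        unfold P041.SE.Sg
        by_cases h4 : 0 < eval ![u b, v b] (g j)
        · simp [h4]
        · have h5 := hb0 j hj
          simp only [h4, decide_false, Bool.false_eq_true, if_false]
          exact lt_of_le_of_ne (not_lt.mp h4) h5
      have h3 : (4 : ℕ) ^ m = 2 ^ (2 * m) := by rw [pow_mul]; norm_num
      rw [h3, mul_comm]
      exact (Nat.mul_le_mul_left _ (card_le_card h2)).trans h1
    calc #(Lg.biUnion E) * 4 ^ m ≤ (∑ a ∈ O, #(O.filter (fun b => S a = S b))) * 4 ^ m := by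
          refine Nat.mul_le_mul_right _ ((card_le_card hsub).trans (card_image_le.trans ?_))
          rw [card_sigma]
      _ = ∑ a ∈ O, #(O.filter (fun b => S a = S b)) * 4 ^ m := by rw [sum_mul]
      _ ≤ ∑ a ∈ O, #M := sum_le_sum hcell
      _ = #O * #M := by rw [sum_const, smul_eq_mul]
      _ ≤ #M ^ 2 := by
        rw [sq]
        exact Nat.mul_le_mul_right _ (card_le_card (filter_subset _ _))
  have h1 : (#Lg : ℝ) * k ^ 2 ≤ 45 * 2 ^ m * ∑ l ∈ Lg, (#(E l) : ℝ) := by
    rw [mul_sum, ← nsmul_eq_mul, ← sum_const]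
    exact sum_le_sum hlow
  have h2 : (∑ l ∈ Lg, (#(E l) : ℝ)) * 4 ^ m ≤ #M ^ 2 := by
    rw [sum_mul]
    exact_mod_cast hup
  have h3 : (#L : ℝ) = #Lb + #Lg := by exact_mod_cast hcard.symm
  have h4 : (#Lb : ℝ) ≤ 8 * 2 ^ m := by
    have : (#Lb : ℝ) ≤ (D : ℝ) := by exact_mod_cast hbad
    rw [hDdef] at this
    push_cast at this
    exact this
  have h5 : (45 : ℝ) * 2 ^ m * ∑ l ∈ Lg, (#(E l) : ℝ) ≤ 45 * #M ^ 2 / 2 ^ m := by
    rw [le_div_iff₀ (by positivity)]
    have h6 : (4 : ℝ) ^ m = 2 ^ m * 2 ^ m := by rw [← mul_pow]; norm_num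
    rw [h6] at h2
    nlinarith
  rw [h3, add_mul]
  have h7 : (#Lb : ℝ) * k ^ 2 ≤ 8 * 2 ^ m * k ^ 2 := mul_le_mul_of_nonneg_right h4 (by positivity)
  linarith

end Vale.Agent.P054.Y.ST
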