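import Vale.Agent.P054.Y.STc

set_option linter.all false
set_option autoImplicit false

namespace Vale.Agent.P054.Y.ST

open Finset MvPolynomial

variable {α : Type*}

open scoped Classical in
/-- two lines have at most one common point -/
theorem inter_le_one (M : Finset α) (u v : α → ℝ) (hu : Set.InjOn u (M : Set α)) {l l' : ℝ × ℝ}
    (h : l ≠ l') : #(M.filter (fun a => On u v l a ∧ On u v l' a)) ≤ 1 := by
  rw [Finset.card_le_one]
  intro a ha b hb
  obtain ⟨haM, ha1, ha2⟩ := mem_filter.mp ha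
  obtain ⟨hbM, hb1, hb2⟩ := mem_filter.mp hb
  by_contra hne
  exact h (on_unique u v (a := a) (b := b) (fun hab => hne (hu haM hbM hab)) ha1 hb1 ha2 hb2)

open scoped Classical in
/-- many points on each line: few lines -/
theorem st_big (M : Finset α) (u v : α → ℝ) (hu : Set.InjOn u (M : Set α)) (L : Finset (ℝ × ℝ))
    (k : ℕ) (hL : ∀ l ∈ L, k ≤ #(M.filter (On u v l))) (hk : 2 * #M ≤ k ^ 2) :
    #L * k ≤ 2 * #M := by
  by_contra hcon
  push Not at hcon
  set I := ∑ l ∈ L, #(M.filter (On u v l)) with hI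
  have hI1 : #L * k ≤ I := by
    rw [hI, ← smul_eq_mul, ← sum_const]
    exact sum_le_sum hL
  have hI2 : I = ∑ a ∈ M, #(L.filter (fun l => On u v l a)) := by
    rw [hI]
    exact Finset.sum_card_bipartiteAbove_eq_sum_card_bipartiteBelow (fun l a => On u v l a)
  have hI3 : I ^ 2 ≤ #M * ∑ a ∈ M, #(L.filter (fun l => On u v l a)) ^ 2 := by
    rw [hI2]
    exact sq_sum_le_card_mul_sum_sq
  have hI4 : ∑ a ∈ M, #(L.filter (fun l => On u v l a)) ^ 2 =
      ∑ p ∈ L ×ˢ L, #(M.filter (fun a => On u v p.1 a ∧ On u v p.2 a)) := by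
    have := Finset.sum_card_bipartiteAbove_eq_sum_card_bipartiteBelow
      (s := M) (t := L ×ˢ L) (fun a (p : (ℝ × ℝ) × (ℝ × ℝ)) => On u v p.1 a ∧ On u v p.2 a)
    refine Eq.trans (sum_congr rfl fun a _ => ?_) this
    rw [sq, ← card_product]
    congr 1
    ext p
    simp only [mem_product, mem_filter, Finset.mem_bipartiteAbove]
    tauto
  have hI5 : ∑ p ∈ L ×ˢ L, #(M.filter (fun a => On u v p.1 a ∧ On u v p.2 a)) ≤ I + #L ^ 2 := by
    have h1 : ∀ p ∈ L ×ˢ L, #(M.filter (fun a => On u v p.1 a ∧ On u v p.2 a)) ≤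
        (if p.1 = p.2 then #(M.filter (On u v p.1)) else 0) + 1 := by
      intro p _
      split_ifs with h
      · refine le_trans (card_le_card ?_) (Nat.le_add_right _ 1)
        intro a ha
        exact mem_filter.mpr ⟨(mem_filter.mp ha).1, (mem_filter.mp ha).2.1⟩
      · rw [zero_add]
        exact inter_le_one M u v hu h
    refine (sum_le_sum h1).trans ?_
    rw [sum_add_distrib, sum_const, card_product, smul_eq_mul, mul_one, ← sq]
    refine Nat.add_le_add_right ?_ _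
    rw [sum_product, hI]
    refine sum_le_sum fun l hl => ?_
    rw [Finset.sum_ite_eq]
    split_ifs <;> simp
  have h1 : I ^ 2 ≤ #M * (I + #L ^ 2) := hI3.trans (Nat.mul_le_mul_left _ (hI4 ▸ hI5))
  -- I ≥ s k > 2 m
  have h2 : 2 * #M < I := lt_of_lt_of_le hcon hI1
  have h3 : (#L * k) ^ 2 ≤ I ^ 2 := Nat.pow_le_pow_left hI1 2
  have h4 : #L ^ 2 * (2 * #M) ≤ #L ^ 2 * k ^ 2 := Nat.mul_le_mul_left _ hk
  generalize #M = m at *
  generalize #L = s at *
  rw [mul_pow] at h3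
  -- I² ≤ m I + m s², 2 m < I, s² k² ≤ I², 2 m s² ≤ s² k²
  have h5 : 2 * m * s ^ 2 ≤ I ^ 2 := by nlinarith
  have h6 : I ^ 2 ≤ 2 * m * I := by nlinarith
  have h7 : 0 < I := by omega
  have h8 : I ≤ 2 * m := by
    have : I * I ≤ (2 * m) * I := by nlinarith
    exact Nat.le_of_mul_le_mul_right this h7
  omega

open scoped Classical in
/-- pairs of points -/
theorem st_small (M : Finset α) (u v : α → ℝ) (hu : Set.InjOn u (M : Set α)) (L : Finset (ℝ × ℝ))
    (k : ℕ) (hL : ∀ l ∈ L, k ≤ #(M.filter (On u v l))) :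
    #L * (k * (k - 1)) ≤ #M ^ 2 := by
  set E : ℝ × ℝ → Finset (α × α) := fun l => (M.filter (On u v l)).offDiag with hE
  have hdis : Set.PairwiseDisjoint (L : Set (ℝ × ℝ)) E := by
    intro l hl l' hl' hne
    rw [Function.onFun, Finset.disjoint_left]
    intro p hp hp'
    apply hne
    obtain ⟨ha, hb, hab⟩ := mem_offDiag.mp hp
    obtain ⟨ha', hb', _⟩ := mem_offDiag.mp hp'
    refine on_unique u v (a := p.1) (b := p.2) ?_ (mem_filter.mp ha).2 (mem_filter.mp hb).2
      (mem_filter.mp ha').2 (mem_filter.mp hb').2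
    intro h
    exact hab (hu (mem_filter.mp ha).1 (mem_filter.mp hb).1 h)
  have h1 : ∀ l ∈ L, k * (k - 1) ≤ #(E l) := by
    intro l hl
    have h2 := hL l hl
    rw [hE]
    simp only
    rw [offDiag_card, ← Nat.mul_sub_one]
    exact Nat.mul_le_mul h2 (Nat.sub_le_sub_right h2 1)
  calc #L * (k * (k - 1)) = ∑ l ∈ L, k * (k - 1) := by rw [sum_const, smul_eq_mul]
    _ ≤ ∑ l ∈ L, #(E l) := sum_le_sum h1
    _ = #(L.biUnion E) := (card_biUnion hdis).symm
    _ ≤ #(M ×ˢ M) := by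
      refine card_le_card fun p hp => ?_
      obtain ⟨l, _, hp⟩ := mem_biUnion.mp hp
      obtain ⟨ha, hb, _⟩ := mem_offDiag.mp hp
      exact mem_product.mpr ⟨(mem_filter.mp ha).1, (mem_filter.mp hb).1⟩
    _ = #M ^ 2 := by rw [card_product, sq]

open scoped Classical in
/-- **Szemeredi-Trotter** for `k`-rich lines. -/
theorem st_rich (M : Finset α) (u v : α → ℝ) (hu : Set.InjOn u (M : Set α)) (L : Finset (ℝ × ℝ))
    (k : ℕ) (hk : 2 ≤ k) (hL : ∀ l ∈ L, k ≤ #(M.filter (On u v l))) :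
    (#L : ℝ) ≤ 6000 * ((#M : ℝ) ^ 2 / k ^ 3 + #M / k) := by
  have hk0 : (0 : ℝ) < k := by exact_mod_cast (by omega : 0 < k)
  have hM0 : (0 : ℝ) ≤ #M := Nat.cast_nonneg _
  by_cases hk64 : k < 64
  · have h1 := st_small M u v hu L k hL
    have h2 : (#L : ℝ) * (k * (k - 1)) ≤ (#M : ℝ) ^ 2 := by
      have h3 : ((#L * (k * (k - 1)) : ℕ) : ℝ) ≤ ((#M ^ 2 : ℕ) : ℝ) := by exact_mod_cast h1
      rw [Nat.cast_mul, Nat.cast_mul, Nat.cast_sub (by omega : 1 ≤ k), Nat.cast_pow] at h3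
      exact_mod_cast h3
    have hk2 : (2 : ℝ) ≤ k := by exact_mod_cast hk
    have hk64' : (k : ℝ) < 64 := by exact_mod_cast hk64
    have h3 : (#L : ℝ) * k ^ 2 ≤ 2 * (#M : ℝ) ^ 2 := by
      have h4 : (k : ℝ) ^ 2 ≤ 2 * (k * (k - 1)) := by nlinarith
      have h5 : (#L : ℝ) * k ^ 2 ≤ #L * (2 * (k * (k - 1))) :=
        mul_le_mul_of_nonneg_left h4 (Nat.cast_nonneg _)
      linarith
    have h4 : (#L : ℝ) ≤ 128 * ((#M : ℝ) ^ 2 / k ^ 3) := by
      rw [← mul_div_assoc, le_div_iff₀ (by positivity)]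
      have h5 : (#L : ℝ) * k ^ 2 * k ≤ 2 * (#M : ℝ) ^ 2 * 64 := by
        apply mul_le_mul h3 hk64'.le hk0.le (by positivity)
      linarith [show (#L : ℝ) * k ^ 3 = #L * k ^ 2 * k by ring]
    have h5 : 0 ≤ (#M : ℝ) ^ 2 / k ^ 3 := by positivity
    have h6 : 0 ≤ (#M : ℝ) / k := by positivity
    linarith
  · push Not at hk64
    by_cases hbig : 2 * #M ≤ k ^ 2
    · have h1 := st_big M u v hu L k hL hbig
      have h2 : (#L : ℝ) * k ≤ 2 * #M := by exact_mod_cast h1
      have h3 : (#L : ℝ) ≤ 2 * (#M / k) := by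
        rw [← mul_div_assoc, le_div_iff₀ hk0]
        exact h2
      have h5 : 0 ≤ (#M : ℝ) ^ 2 / k ^ 3 := by positivity
      have h6 : 0 ≤ (#M : ℝ) / k := by positivity
      linarith
    · push Not at hbig
      set m := Nat.log 2 (k / 64) with hm
      have hk64d : k / 64 ≠ 0 := by omega
      have h1 : 2 ^ m ≤ k / 64 := Nat.pow_log_le_self 2 hk64d
      have h2 : k / 64 < 2 ^ (m + 1) := Nat.lt_pow_succ_log_self (by norm_num) _
      have h3 : 64 * 2 ^ m ≤ k := by omega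
      have h4 : k < 128 * 2 ^ m := by
        rw [pow_succ] at h2
        omega
      have h5 := st_key M u v hu L k m h3 hL
      have h3' : (64 : ℝ) * 2 ^ m ≤ k := by exact_mod_cast h3
      have h4' : (k : ℝ) < 128 * 2 ^ m := by exact_mod_cast h4
      have hbig' : (k : ℝ) ^ 2 < 2 * #M := by exact_mod_cast hbig
      have hP : (0 : ℝ) < 2 ^ m := by positivity
      generalize (2 : ℝ) ^ m = P at *
      have h6 : 45 * (#M : ℝ) ^ 2 / P ≤ 5760 * #M ^ 2 / k := by
        rw [div_le_div_iff₀ hP hk0]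
        nlinarith [sq_nonneg (#M : ℝ)]
      have h7 : 8 * P * (k : ℝ) ^ 2 ≤ k / 8 * k ^ 2 := by
        apply mul_le_mul_of_nonneg_right _ (by positivity)
        linarith
      have h8 : (#L : ℝ) * k ^ 2 ≤ k / 8 * k ^ 2 + 5760 * #M ^ 2 / k := by linarith
      have h9 : (#L : ℝ) ≤ k / 8 + 5760 * ((#M : ℝ) ^ 2 / k ^ 3) := by
        have hk2 : (0 : ℝ) < k ^ 2 := by positivity
        rw [← mul_le_mul_iff_left₀ hk2]
        refine h8.trans (le_of_eq ?_)
        field_simp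
      have h10 : (k : ℝ) / 8 ≤ #M / k := by
        rw [div_le_div_iff₀ (by norm_num) hk0]
        nlinarith
      have h5 : 0 ≤ (#M : ℝ) ^ 2 / k ^ 3 := by positivity
      have h6 : 0 ≤ (#M : ℝ) / k := by positivity
      linarith

end Vale.Agent.P054.Y.ST
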