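import Vale.Agent.P054.Y.STd
import Vale.Agent.P054.Y.Sections
import Vale.Agent.P054.R.Defs

set_option linter.all false
set_option autoImplicit false

namespace Vale.Agent.P054.Y.ST

open Finset Matrix Vale.Agent.P054.R

abbrev V3 := Fin 3 → ℝ

theorem cross_smul_self (t : ℝ) (b : V3) : crossProduct (t • b) b = 0 := by
  simp [cross_self]

theorem onL_iff {x b : V3} (hb : b ≠ 0) (a : V3) : OnL x b a ↔ ∃ t : ℝ, a = x + t • b := by
  constructor
  · intro h
    exact Sec.on_line hb h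
  · rintro ⟨t, rfl⟩
    unfold OnL
    rw [add_sub_cancel_left]
    exact cross_smul_self t b

/-- a line through two of its points -/
theorem onL_two {x b p q : V3} (hb : b ≠ 0) (hp : OnL x b p) (hq : OnL x b q) (hpq : p ≠ q)
    (a : V3) : OnL p (q - p) a ↔ OnL x b a := by
  obtain ⟨s, rfl⟩ := (onL_iff hb p).1 hp
  obtain ⟨t, rfl⟩ := (onL_iff hb q).1 hq
  have hst : t - s ≠ 0 := by
    intro h
    apply hpq
    rw [sub_eq_zero.mp h]
  have h1 : x + t • b - (x + s • b) = (t - s) • b := by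
    rw [sub_smul]; abel
  have hb' : x + t • b - (x + s • b) ≠ 0 := by
    rw [h1]
    exact smul_ne_zero hst hb
  rw [onL_iff hb, onL_iff hb', h1]
  constructor
  · rintro ⟨r, rfl⟩
    refine ⟨s + r * (t - s), ?_⟩
    rw [smul_smul, add_smul, add_assoc]
  · rintro ⟨r, rfl⟩
    refine ⟨(r - s) / (t - s), ?_⟩
    rw [smul_smul, div_mul_cancel₀ _ hst, sub_smul]
    abel

open scoped Classical in
/-- the sets of at least `k` collinear points of `S` -/
noncomputable def rich (S : Finset V3) (k : ℕ) : Finset (Finset V3) :=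
  S.powerset.filter (fun A => k ≤ #A ∧ ∃ x b : V3, b ≠ 0 ∧ A = S.filter (fun a => OnL x b a))

theorem exists_proj (S : Finset V3) : ∃ f1 f2 : Module.Dual ℝ V3,
    (∀ a ∈ S, ∀ b ∈ S, a ≠ b → f1 a ≠ f1 b) ∧
    (∀ a ∈ S, ∀ b ∈ S, ∀ c ∈ S, f1 (b - a) * f2 (c - a) = f1 (c - a) * f2 (b - a) →
      f1 (b - a) • (c - a) = f1 (c - a) • (b - a)) := by
  classical
  obtain ⟨f1, hf1⟩ := Module.exists_dual_forall_apply_ne_zero (K := ℝ)
    (fun p : {p : {i // i ∈ S} × {i // i ∈ S} // p.1.1 ≠ p.2.1} => p.1.1.1 - p.1.2.1)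
    (fun p => sub_ne_zero.mpr p.2)
  obtain ⟨f2, hf2⟩ := Module.exists_dual_forall_apply_ne_zero (K := ℝ)
    (fun p : {p : {i // i ∈ S} × {i // i ∈ S} × {i // i ∈ S} //
        f1 (p.2.1.1 - p.1.1) • (p.2.2.1 - p.1.1) - f1 (p.2.2.1 - p.1.1) • (p.2.1.1 - p.1.1) ≠ 0} =>
        f1 (p.1.2.1.1 - p.1.1.1) • (p.1.2.2.1 - p.1.1.1) -
          f1 (p.1.2.2.1 - p.1.1.1) • (p.1.2.1.1 - p.1.1.1))
    (fun p => p.2)
  refine ⟨f1, f2, ?_, ?_⟩
  · intro a ha b hb hab h
    have := hf1 ⟨(⟨a, ha⟩, ⟨b, hb⟩), hab⟩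
    simp only [map_sub] at this
    exact this (sub_eq_zero.mpr h)
  · intro a ha b hb c hc h
    by_contra hne
    have := hf2 ⟨(⟨a, ha⟩, ⟨b, hb⟩, ⟨c, hc⟩), sub_ne_zero.mpr hne⟩
    apply this
    simp only [map_sub, map_smul, smul_eq_mul] at h ⊢
    linarith

open scoped Classical in
theorem card_rich_le (S : Finset V3) (k : ℕ) (hk : 2 ≤ k) :
    (#(rich S k) : ℝ) ≤ 6000 * ((#S : ℝ) ^ 2 / k ^ 3 + #S / k) := by
  obtain ⟨f1, f2, hf1, hf2⟩ := exists_proj S
  have hu : Set.InjOn (fun a => f1 a) (S : Set V3) := by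
    intro a ha b hb h
    by_contra hne
    exact hf1 a ha b hb hne h
  -- two points on every rich set
  have htwo : ∀ A ∈ rich S k, ∃ p ∈ S, ∃ q ∈ S, p ≠ q ∧
      A = S.filter (fun a => OnL p (q - p) a) ∧ k ≤ #A := by
    intro A hA
    obtain ⟨hAS, hkA, x, b, hb, hAx⟩ := mem_filter.mp hA
    obtain ⟨p, hp, q, hq, hpq⟩ := Finset.one_lt_card.mp (lt_of_lt_of_le (by omega) hkA : 1 < #A)
    have hp' := mem_filter.mp (hAx ▸ hp)
    have hq' := mem_filter.mp (hAx ▸ hq)
    refine ⟨p, hp'.1, q, hq'.1, hpq, ?_, hkA⟩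
    rw [hAx]
    refine filter_congr fun a _ => ?_
    exact (onL_two hb hp'.2 hq'.2 hpq a).symm
  choose! P hPS Q hQS hPQ hAeq hAk using htwo
  set ln : Finset V3 → ℝ × ℝ := fun A =>
    (f2 (Q A - P A) / f1 (Q A - P A), f2 (P A) - f2 (Q A - P A) / f1 (Q A - P A) * f1 (P A))
    with hln
  have hmem : ∀ A ∈ rich S k, ∀ c ∈ S, (On (fun a => f1 a) (fun a => f2 a) (ln A) c ↔ c ∈ A) := by
    intro A hA c hc
    have hne : f1 (Q A - P A) ≠ 0 := by
      rw [map_sub]
      exact sub_ne_zero.mpr (hf1 _ (hQS A hA) _ (hPS A hA) (hPQ A hA).symm)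
    have h1 : On (fun a => f1 a) (fun a => f2 a) (ln A) c ↔
        f1 (Q A - P A) * f2 (c - P A) = f1 (c - P A) * f2 (Q A - P A) := by
      unfold On
      simp only [hln]
      rw [map_sub f2 c, map_sub f1 c]
      generalize f1 (Q A - P A) = w at *
      generalize f2 (Q A - P A) = z at *
      constructor
      · intro h
        rw [h]
        field_simp
        ring
      · intro h
        have h2 : f2 c = f2 (P A) + (f1 c - f1 (P A)) * z / w := by
          field_simp
          linarith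
        rw [h2]
        ring
    rw [h1]
    have hQP : Q A - P A ≠ 0 := sub_ne_zero.mpr (hPQ A hA).symm
    have h3 : c ∈ A ↔ OnL (P A) (Q A - P A) c := by
      conv_lhs => rw [hAeq A hA]
      rw [mem_filter]
      exact ⟨fun h => h.2, fun h => ⟨hc, h⟩⟩
    rw [h3]
    constructor
    · intro h
      have h4 := hf2 _ (hPS A hA) _ (hQS A hA) c hc h
      rw [onL_iff hQP]
      refine ⟨f1 (c - P A) / f1 (Q A - P A), ?_⟩
      rw [div_eq_inv_mul, mul_smul, ← h4, smul_smul, inv_mul_cancel₀ hne, one_smul]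
      abel
    · intro h
      obtain ⟨t, ht⟩ := (onL_iff hQP c).1 h
      have h5 : c - P A = t • (Q A - P A) := by rw [ht]; abel
      rw [h5, map_smul, map_smul, smul_eq_mul, smul_eq_mul]
      ring
  have hinj : Set.InjOn ln (rich S k : Set (Finset V3)) := by
    intro A hA B hB h
    ext c
    constructor
    · intro hcA
      have hc : c ∈ S := by
        have := mem_filter.mp hA
        exact mem_powerset.mp this.1 hcA
      rw [← hmem B hB c hc, ← h]
      exact (hmem A hA c hc).2 hcA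
    · intro hcB
      have hc : c ∈ S := by
        have := mem_filter.mp hB
        exact mem_powerset.mp this.1 hcB
      rw [← hmem A hA c hc, h]
      exact (hmem B hB c hc).2 hcB
  have h := st_rich S (fun a => f1 a) (fun a => f2 a) hu ((rich S k).image ln) k hk ?_
  · rwa [card_image_of_injOn hinj] at h
  · intro l hl
    obtain ⟨A, hA, rfl⟩ := mem_image.mp hl
    refine (hAk A hA).trans (card_le_card fun c hc => ?_)
    have hcS : c ∈ S := mem_powerset.mp (mem_filter.mp hA).1 hc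
    exact mem_filter.mpr ⟨hcS, (hmem A hA c hcS).2 hc⟩

end Vale.Agent.P054.Y.ST
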